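import Vale.Agent.P110.Basic

/-! Mean square tools on the unit interval. -/

set_option linter.unusedVariables false

namespace Vale.Agent.P130

open Finset MeasureTheory Vale.Agent.P110

theorem ii_of_bdd {E : Type} [NormedAddCommGroup E] [MeasurableSpace E] [BorelSpace E]
    [SecondCountableTopology E] {f : ℝ → E} (hm : Measurable f) (C : ℝ) (hb : ∀ x, ‖f x‖ ≤ C)
    (a b : ℝ) : IntervalIntegrable f volume a b :=
  (intervalIntegrable_const (c := C)).mono_fun' hm.aestronglyMeasurable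
    (Filter.Eventually.of_forall fun x => hb x)

theorem integral_e_int01 (m : ℤ) : ∫ x in (0 : ℝ)..1, e (m * x) = if m = 0 then 1 else 0 := by
  have := integral_e_int 0 m
  rwa [zero_add] at this

theorem normsq_expand {ι : Type} (s : Finset ι) (c : ι → ℂ) (k : ι → ℤ) (τ : ℝ) :
    ((‖∑ i ∈ s, c i * e (k i * τ)‖ ^ 2 : ℝ) : ℂ) =
      ∑ i ∈ s, ∑ j ∈ s, (c i * (starRingEnd ℂ) (c j)) * e (((k i - k j : ℤ) : ℝ) * τ) := by
  rw [Complex.ofReal_pow, ← Complex.mul_conj', map_sum, sum_mul_sum]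
  refine sum_congr rfl fun i _ => sum_congr rfl fun j _ => ?_
  rw [map_mul, conj_e]
  push_cast
  rw [sub_mul, e_sub]
  ring

theorem parseval {ι : Type} (s : Finset ι) (c : ι → ℂ) (k : ι → ℤ) (hk : Set.InjOn k s) :
    ∫ τ in (0 : ℝ)..1, ‖∑ i ∈ s, c i * e (k i * τ)‖ ^ 2 = ∑ i ∈ s, ‖c i‖ ^ 2 := by
  classical
  apply Complex.ofReal_injective
  rw [← intervalIntegral.integral_ofReal]
  simp_rw [normsq_expand]
  rw [intervalIntegral.integral_finsetSum fun i _ =>
    Continuous.intervalIntegrable (by fun_prop) _ _, Complex.ofReal_sum]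
  refine sum_congr rfl fun i hi => ?_
  rw [intervalIntegral.integral_finsetSum fun i _ =>
    Continuous.intervalIntegrable (by fun_prop) _ _]
  simp_rw [intervalIntegral.integral_const_mul, integral_e_int01]
  rw [sum_eq_single i]
  · simp [Complex.mul_conj']
  · intro j hj hji
    rw [if_neg (fun h => hji (hk hj hi (by omega))), mul_zero]
  · intro h; exact absurd hi h

theorem integral_shift {E : Type} [NormedAddCommGroup E] [NormedSpace ℝ E] {f : ℝ → E}
    (hf : Function.Periodic f 1) (c : ℝ) :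
    ∫ τ in (0 : ℝ)..1, f (τ - c) = ∫ τ in (0 : ℝ)..1, f τ := by
  rw [intervalIntegral.integral_comp_sub_right]
  have := hf.intervalIntegral_add_eq (0 - c) 0
  rw [show 0 - c + 1 = 1 - c by ring, zero_add] at this
  exact this

theorem integral_neg' {E : Type} [NormedAddCommGroup E] [NormedSpace ℝ E] {f : ℝ → E}
    (hf : Function.Periodic f 1) :
    ∫ τ in (0 : ℝ)..1, f (-τ) = ∫ τ in (0 : ℝ)..1, f τ := by
  rw [intervalIntegral.integral_comp_neg]
  have := hf.intervalIntegral_add_eq (-1) 0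
  rw [neg_add_cancel, zero_add] at this
  rw [neg_zero]
  exact this

theorem norm_add_sq_le (a b : ℂ) : ‖a + b‖ ^ 2 ≤ 2 * ‖a‖ ^ 2 + 2 * ‖b‖ ^ 2 := by
  have h := norm_add_le a b
  have h2 := pow_le_pow_left₀ (norm_nonneg _) h 2
  nlinarith [sq_nonneg (‖a‖ - ‖b‖)]

end Vale.Agent.P130
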