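import Vale.Agent.P130.Defs
import Vale.Agent.P130.L2
import Vale.Agent.P110.Fresnel

/-! A linear chirp is close in mean square to a unimodular function on an arc. -/

set_option linter.unusedVariables false

namespace Vale.Agent.P130

open Finset Filter Vale.Agent.P110
open scoped Topology

theorem chirp_even (Ω a b : ℝ) : ∫ u in (-a)..b, e (Ω * u ^ 2 / 2) =
    ((∫ u in (-a)..a, e (Ω * u ^ 2 / 2)) + ∫ u in (-b)..b, e (Ω * u ^ 2 / 2)) / 2 := by
  have hc : Continuous fun u : ℝ => e (Ω * u ^ 2 / 2) := by fun_prop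
  have h1 : ∀ a : ℝ, ∫ u in (-a)..0, e (Ω * u ^ 2 / 2) = ∫ u in (0 : ℝ)..a, e (Ω * u ^ 2 / 2) := by
    intro a
    have := intervalIntegral.integral_comp_neg (fun u : ℝ => e (Ω * u ^ 2 / 2)) (a := 0) (b := a)
    simp only [even_two, Even.neg_pow, neg_zero] at this
    exact this.symm
  have h2 : ∀ a b : ℝ, ∫ u in (-a)..b, e (Ω * u ^ 2 / 2) =
      (∫ u in (0 : ℝ)..a, e (Ω * u ^ 2 / 2)) + ∫ u in (0 : ℝ)..b, e (Ω * u ^ 2 / 2) := by
    intro a b
    rw [← h1 a, intervalIntegral.integral_add_adjacent_intervals (hc.intervalIntegrable _ _)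
      (hc.intervalIntegrable _ _)]
  rw [h2, h2, h2]
  ring

theorem chirp_lim : Tendsto (fun M : ℕ => 4 * (1 + Real.log M) / √M) atTop (𝓝 0) := by
  have h1 : Tendsto (fun M : ℕ => √√(M : ℝ)) atTop atTop :=
    Real.tendsto_sqrt_atTop.comp (Real.tendsto_sqrt_atTop.comp tendsto_natCast_atTop_atTop)
  have h2 : Tendsto (fun M : ℕ => 20 / √√(M : ℝ)) atTop (𝓝 0) := h1.const_div_atTop 20
  refine tendsto_of_tendsto_of_tendsto_of_le_of_le' tendsto_const_nhds h2 ?_ ?_
  · filter_upwards with M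
    have := Real.log_natCast_nonneg M
    positivity
  · filter_upwards [eventually_ge_atTop 1] with M hM
    have hM1 : (1 : ℝ) ≤ M := by exact_mod_cast hM
    have hq1 : 1 ≤ √(M : ℝ) := Real.one_le_sqrt.mpr hM1
    have hq : 1 ≤ √√(M : ℝ) := Real.one_le_sqrt.mpr hq1
    have e1 : √√(M : ℝ) * √√(M : ℝ) = √(M : ℝ) := Real.mul_self_sqrt (by positivity)
    have e2 : Real.log M = 4 * Real.log √√(M : ℝ) := by
      rw [Real.log_sqrt (by positivity), Real.log_sqrt (by positivity)]; ring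
    have h3 := Real.log_le_sub_one_of_pos (by linarith : 0 < √√(M : ℝ))
    rw [div_le_div_iff₀ (by positivity) (by positivity), e2]
    set q := √√(M : ℝ)
    rw [← e1]
    nlinarith

theorem chirp (σ η : ℝ) (h0 : 0 < σ) (h1 : σ ≤ 1) (hη : 0 < η) : ∀ᶠ M : ℕ in atTop,
    ∃ E : ℝ → ℂ, Measurable E ∧ Function.Periodic E 1 ∧
      (∀ τ, ‖E τ‖ = if 0 < Int.fract τ ∧ Int.fract τ < σ then 1 else 0) ∧
      ∫ τ in (0 : ℝ)..1, ‖(√(σ / M) : ℝ) * ∑ m ∈ range M, e (-(σ * m ^ 2 / (2 * M))) * e (m * τ)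
        - E τ‖ ^ 2 ≤ η := by
  obtain ⟨ω, hω, hF⟩ := fresnel
  filter_upwards [chirp_lim.eventually (gt_mem_nhds hη), eventually_ge_atTop 1] with M hM hM1
  have hMr : (1 : ℝ) ≤ M := by exact_mod_cast hM1
  have hM0 : (0 : ℝ) < M := by linarith
  set F : ℝ → ℂ := fun τ => (starRingEnd ℂ) ω * e (M * τ ^ 2 / (2 * σ)) with hFd
  have cF : Continuous F := by simp only [hFd]; fun_prop
  have nF : ∀ τ, ‖F τ‖ = 1 := by intro τ; simp [hFd, hω]
  set E : ℝ → ℂ := fun τ => if 0 < Int.fract τ ∧ Int.fract τ < σ then F (Int.fract τ) else 0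
    with hE
  have mE : Measurable E := by
    refine Measurable.ite ?_ (cF.measurable.comp measurable_fract) measurable_const
    exact measurable_fract (measurableSet_Ioo (a := 0) (b := σ))
  have nE : ∀ τ, ‖E τ‖ = if 0 < Int.fract τ ∧ Int.fract τ < σ then 1 else 0 := by
    intro τ
    simp only [hE]
    split_ifs
    · exact nF _
    · simp
  refine ⟨E, mE, fun τ => by simp only [hE, Int.fract_add_one], nE, ?_⟩
  set r : ℝ := √(σ / M) with hr
  have hr0 : 0 < r := Real.sqrt_pos.mpr (by positivity)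
  have hr2 : r ^ 2 = σ / M := Real.sq_sqrt (by positivity)
  have hr1 : r ≤ 1 := Real.sqrt_le_one.mpr ((div_le_one hM0).mpr (by linarith))
  set S : ℝ → ℂ := fun τ => (r : ℂ) * ∑ m ∈ range M, e (-(σ * m ^ 2 / (2 * M))) * e (m * τ)
    with hS
  have cS : Continuous S := by simp only [hS]; fun_prop
  have nS : ∀ τ, ‖S τ‖ ≤ M := by
    intro τ
    simp only [hS, norm_mul, Complex.norm_real, Real.norm_of_nonneg hr0.le]
    have : ‖∑ m ∈ range M, e (-(σ * m ^ 2 / (2 * M))) * e (m * τ)‖ ≤ M :=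
      (norm_sum_le _ _).trans (by simp)
    nlinarith [norm_nonneg (∑ m ∈ range M, e (-(σ * m ^ 2 / (2 * M))) * e (m * τ))]
  have hii : ∀ a b, IntervalIntegrable (fun τ => ‖S τ - E τ‖ ^ 2) MeasureTheory.volume a b := by
    refine ii_of_bdd ((cS.measurable.sub mE).norm.pow_const 2) ((M + 1) ^ 2) (fun τ => ?_)
    rw [norm_pow, norm_norm]
    refine pow_le_pow_left₀ (norm_nonneg _) ((norm_sub_le _ _).trans (add_le_add (nS τ) ?_)) 2
    rw [nE]; split_ifs <;> norm_num
  show ∫ τ in (0 : ℝ)..1, ‖S τ - E τ‖ ^ 2 ≤ η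
  have e1 : ∫ τ in (0 : ℝ)..σ, ‖S τ - E τ‖ ^ 2 =
      ∫ τ in (0 : ℝ)..σ, (‖S τ‖ ^ 2 + 1 - 2 * ((starRingEnd ℂ) (S τ) * F τ).re) := by
    refine intervalIntegral.integral_congr_Ioo_of_le h0.le (fun τ hτ => ?_)
    have hf : Int.fract τ = τ := Int.fract_eq_self.mpr ⟨hτ.1.le, by linarith [hτ.2]⟩
    simp only [hE, hf, hτ.1, hτ.2, and_self, if_true]
    rw [← Complex.normSq_eq_norm_sq, Complex.normSq_sub, Complex.normSq_eq_norm_sq,
      Complex.normSq_eq_norm_sq, nF, ← Complex.conj_re (S τ * _), map_mul, Complex.conj_conj]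
    ring
  have e2 : ∫ τ in σ..1, ‖S τ - E τ‖ ^ 2 = ∫ τ in σ..1, ‖S τ‖ ^ 2 := by
    refine intervalIntegral.integral_congr_Ioo_of_le h1 (fun τ hτ => ?_)
    have hf : Int.fract τ = τ := Int.fract_eq_self.mpr ⟨by linarith [hτ.1], hτ.2⟩
    simp only [hE, hf, not_lt.mpr hτ.1.le, and_false, if_false, sub_zero]
  have e3 : ∫ τ in (0 : ℝ)..1, ‖S τ‖ ^ 2 = σ := by
    have := parseval (range M) (fun m => (r : ℂ) * e (-(σ * m ^ 2 / (2 * M)))) (fun m => (m : ℤ))
      (fun a _ b _ h => Nat.cast_injective (R := ℤ) h)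
    simp only [norm_mul, norm_e, mul_one, Complex.norm_real, Real.norm_of_nonneg hr0.le,
      sum_const, card_range, nsmul_eq_mul, hr2, Int.cast_natCast] at this
    rw [mul_div_cancel₀ _ hM0.ne'] at this
    rw [← this]
    congr 1
    funext τ
    simp only [hS, mul_sum, mul_assoc]
  have cS2 : Continuous fun τ => ‖S τ‖ ^ 2 := by fun_prop
  have cP : Continuous fun τ => (starRingEnd ℂ) (S τ) * F τ :=
    (Complex.continuous_conj.comp cS).mul cF
  set Ω : ℝ := M / σ with hΩ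
  have hΩ0 : 0 < Ω := by positivity
  have hsq : ((√Ω : ℝ) : ℂ)⁻¹ = r := by
    rw [← Complex.ofReal_inv, ← Real.sqrt_inv, hΩ, inv_div]
  set I : ℝ → ℂ := fun a => ∫ u in (-a)..a, e (Ω * u ^ 2 / 2) with hI
  have hIb : ∀ m : ℕ, ‖I (σ * m / M) - ω * r‖ ≤ 2 / (m + 1) := by
    intro m
    rcases Nat.eq_zero_or_pos m with rfl | hm
    · simp [hI, hω, abs_of_pos hr0]
      linarith
    · have hm' : (1 : ℝ) ≤ m := by exact_mod_cast hm
      have := hF Ω (σ * m / M) hΩ0 (by positivity)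
      rw [div_eq_mul_inv ω, hsq] at this
      refine this.trans ?_
      rw [show Ω * (σ * m / M) = m by rw [hΩ]; field_simp, div_le_div_iff₀ (by positivity)
        (by positivity)]
      linarith
  have e4 : ∫ τ in (0 : ℝ)..σ, (starRingEnd ℂ) (S τ) * F τ =
      r * (starRingEnd ℂ) ω * ∑ m ∈ range M, (I (σ * m / M) + I (σ * ((M - m : ℕ) : ℝ) / M)) / 2 := by
    have h2 : ∀ τ, (starRingEnd ℂ) (S τ) * F τ =
        r * (starRingEnd ℂ) ω * ∑ m ∈ range M, e (Ω * (τ - σ * m / M) ^ 2 / 2) := by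
      intro τ
      simp only [hS, hFd, map_mul, map_sum, Complex.conj_ofReal, conj_e, mul_sum, sum_mul]
      refine sum_congr rfl fun m _ => ?_
      rw [show Ω * (τ - σ * m / M) ^ 2 / 2 =
        - -(σ * m ^ 2 / (2 * M)) + -(m * τ) + M * τ ^ 2 / (2 * σ) by rw [hΩ]; field_simp; ring,
        e_add, e_add]
      ring
    simp_rw [h2]
    rw [intervalIntegral.integral_const_mul, intervalIntegral.integral_finsetSum fun i _ =>
      Continuous.intervalIntegrable (by fun_prop) _ _]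
    congr 1
    refine sum_congr rfl fun m hm => ?_
    rw [intervalIntegral.integral_comp_sub_right (fun u => e (Ω * u ^ 2 / 2)), zero_sub,
      chirp_even, Nat.cast_sub (mem_range.mp hm).le]
    simp only [hI]
    rw [show σ - σ * m / M = σ * (M - m) / M by field_simp]
  have e5 : ‖(∫ τ in (0 : ℝ)..σ, (starRingEnd ℂ) (S τ) * F τ) - σ‖ ≤
      r * (2 * (1 + Real.log M)) := by
    have hσ : (σ : ℂ) = r * (starRingEnd ℂ) ω * ∑ m ∈ range M, ω * r := by
      have h3 : (starRingEnd ℂ) ω * ω = 1 := by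
        rw [Complex.conj_mul', hω]; simp
      have h4 : (σ : ℂ) = (r : ℂ) ^ 2 * M := by
        rw [← Complex.ofReal_pow, hr2]
        have : (M : ℂ) ≠ 0 := by exact_mod_cast hM0.ne'
        push_cast; field_simp
      rw [sum_const, card_range, nsmul_eq_mul, h4]
      linear_combination -((r : ℂ) ^ 2 * M) * h3
    rw [e4, hσ, ← mul_sub, ← sum_sub_distrib, norm_mul, norm_mul, Complex.norm_real,
      Real.norm_of_nonneg hr0.le, RCLike.norm_conj, hω, mul_one]
    refine mul_le_mul_of_nonneg_left ((norm_sum_le _ _).trans ?_) hr0.le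
    have h5 : ∀ m ∈ range M, ‖(I (σ * m / M) + I (σ * ((M - m : ℕ) : ℝ) / M)) / 2 - ω * r‖ ≤
        ((m : ℝ) + 1)⁻¹ + (((M - 1 - m : ℕ) : ℝ) + 1)⁻¹ := by
      intro m hm
      have hm' := mem_range.mp hm
      have k1 := hIb m
      have k2 := hIb (M - m)
      have k3 : (I (σ * m / M) + I (σ * ((M - m : ℕ) : ℝ) / M)) / 2 - ω * r =
          ((I (σ * m / M) - ω * r) + (I (σ * ((M - m : ℕ) : ℝ) / M) - ω * r)) / 2 := by ring
      have k4 := norm_add_le (I (σ * m / M) - ω * r) (I (σ * ((M - m : ℕ) : ℝ) / M) - ω * r)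
      have k5 : (((M - m : ℕ) : ℝ) + 1)⁻¹ ≤ (((M - 1 - m : ℕ) : ℝ) + 1)⁻¹ := by
        refine inv_anti₀ (by positivity) ?_
        have : M - 1 - m ≤ M - m := by omega
        have : ((M - 1 - m : ℕ) : ℝ) ≤ ((M - m : ℕ) : ℝ) := by exact_mod_cast this
        linarith
      rw [k3, norm_div, Complex.norm_two]
      rw [div_eq_mul_inv 2] at k1 k2
      linarith
    refine (sum_le_sum h5).trans ?_
    rw [sum_add_distrib, sum_range_reflect (fun m : ℕ => ((m : ℝ) + 1)⁻¹)]
    have h6 := harmonic_le_one_add_log M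
    simp only [harmonic, Rat.cast_sum, Rat.cast_inv, Rat.cast_natCast, Nat.cast_add,
      Nat.cast_one, Rat.cast_add, Rat.cast_one] at h6
    linarith
  have e6 : σ - r * (2 * (1 + Real.log M)) ≤
      ∫ τ in (0 : ℝ)..σ, ((starRingEnd ℂ) (S τ) * F τ).re := by
    have := Complex.reCLM.intervalIntegral_comp_comm (μ := MeasureTheory.volume) (a := 0) (b := σ)
      (cP.intervalIntegrable _ _)
    simp only [Complex.reCLM_apply] at this
    rw [this]
    have h7 := (abs_le.mp ((Complex.abs_re_le_norm _).trans e5)).1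
    rw [Complex.sub_re, Complex.ofReal_re] at h7
    linarith
  rw [← intervalIntegral.integral_add_adjacent_intervals (hii 0 σ) (hii σ 1), e1, e2,
    intervalIntegral.integral_sub (Continuous.intervalIntegrable (by fun_prop) _ _)
      (Continuous.intervalIntegrable (by fun_prop) _ _),
    intervalIntegral.integral_add (cS2.intervalIntegrable _ _) intervalIntegrable_const,
    intervalIntegral.integral_const_mul]
  rw [← intervalIntegral.integral_add_adjacent_intervals (cS2.intervalIntegrable 0 σ)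
    (cS2.intervalIntegrable σ 1)] at e3
  simp only [intervalIntegral.integral_const, sub_zero, smul_eq_mul, mul_one]
  have h8 : r ≤ 1 / √M := by
    rw [hr, Real.sqrt_div h0.le]
    exact div_le_div_of_nonneg_right (Real.sqrt_le_one.mpr h1) (by positivity)
  have h9 : r * (4 * (1 + Real.log M)) ≤ 1 / √M * (4 * (1 + Real.log M)) :=
    mul_le_mul_of_nonneg_right h8 (by have := Real.log_natCast_nonneg M; positivity)
  have h10 : 1 / √M * (4 * (1 + Real.log M)) = 4 * (1 + Real.log M) / √M := by ring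
  linarith

end Vale.Agent.P130
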