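import Vale.Agent.P130.Defs
import Vale.Agent.P130.L2

/-! From the vector sequence to flat spacer polynomials. -/

set_option linter.unusedVariables false

namespace Vale.Agent.P130

open Finset Vale.Agent.P110

/-- Trigonometric polynomials with frequencies in `[lo, hi]`. -/
def Fr (lo hi : ℤ) : Submodule ℂ (ℝ → ℂ) :=
  Submodule.span ℂ {g | ∃ k : ℤ, lo ≤ k ∧ k ≤ hi ∧ g = fun θ : ℝ => e (k * θ)}

theorem Fr.e_mem {lo hi k : ℤ} (h1 : lo ≤ k) (h2 : k ≤ hi) :
    (fun θ : ℝ => e (k * θ)) ∈ Fr lo hi := Submodule.subset_span ⟨k, h1, h2, rfl⟩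

theorem Fr.cont {lo hi : ℤ} {g : ℝ → ℂ} (hg : g ∈ Fr lo hi) : Continuous g := by
  induction hg using Submodule.span_induction with
  | mem g h => obtain ⟨k, _, _, rfl⟩ := h; fun_prop
  | zero => exact continuous_const
  | add a b _ _ ha hb => exact ha.add hb
  | smul c a _ ha => exact ha.const_smul c

theorem Fr.mul {lo hi lo' hi' : ℤ} {g g' : ℝ → ℂ} (hg : g ∈ Fr lo hi) (hg' : g' ∈ Fr lo' hi') :
    g * g' ∈ Fr (lo + lo') (hi + hi') := by
  induction hg using Submodule.span_induction with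
  | mem g h =>
    obtain ⟨k, k1, k2, rfl⟩ := h
    induction hg' using Submodule.span_induction with
    | mem g h =>
      obtain ⟨l, l1, l2, rfl⟩ := h
      have := Fr.e_mem (lo := lo + lo') (hi := hi + hi') (k := k + l) (by omega) (by omega)
      convert this using 1
      funext θ
      rw [Pi.mul_apply, ← e_add]
      congr 1; push_cast; ring
    | zero => simp
    | add a b _ _ ha hb => rw [mul_add]; exact add_mem ha hb
    | smul c a _ ha => rw [mul_smul_comm]; exact Submodule.smul_mem _ c ha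
  | zero => simp
  | add a b _ _ ha hb => rw [add_mul]; exact add_mem ha hb
  | smul c a _ ha => rw [smul_mul_assoc]; exact Submodule.smul_mem _ c ha

theorem Fr.conj {lo hi : ℤ} {g : ℝ → ℂ} (hg : g ∈ Fr lo hi) : star g ∈ Fr (-hi) (-lo) := by
  induction hg using Submodule.span_induction with
  | mem g h =>
    obtain ⟨k, k1, k2, rfl⟩ := h
    have := Fr.e_mem (lo := -hi) (hi := -lo) (k := -k) (by omega) (by omega)
    convert this using 1
    funext θ
    rw [Pi.star_apply, RCLike.star_def, conj_e]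
    congr 1; push_cast; ring
  | zero => simp
  | add a b _ _ ha hb => rw [star_add]; exact add_mem ha hb
  | smul c a _ ha => rw [star_smul]; exact Submodule.smul_mem _ _ ha

theorem Fr.integral_zero {lo hi : ℤ} (h : 0 < lo ∨ hi < 0) {g : ℝ → ℂ} (hg : g ∈ Fr lo hi) :
    ∫ θ in (0 : ℝ)..1, g θ = 0 := by
  induction hg using Submodule.span_induction with
  | mem g h =>
    obtain ⟨k, k1, k2, rfl⟩ := h
    rw [integral_e_int01, if_neg (by omega)]
  | zero => simp
  | add a b h1 h2 ha hb =>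
    simp only [Pi.add_apply]
    rw [intervalIntegral.integral_add ((Fr.cont h1).intervalIntegrable _ _)
      ((Fr.cont h2).intervalIntegrable _ _), ha, hb, add_zero]
  | smul c a _ ha =>
    simp only [Pi.smul_apply, smul_eq_mul]
    rw [intervalIntegral.integral_const_mul, ha, mul_zero]

theorem block_parseval (p H : ℕ) (g : ℕ → ℝ → ℂ) (hg : ∀ j, g j ∈ Fr 0 (H - 1)) :
    ∫ θ in (0 : ℝ)..1, ‖∑ j ∈ range p, g j θ * e (((H * j : ℤ) : ℝ) * θ)‖ ^ 2 =
      ∑ j ∈ range p, ∫ θ in (0 : ℝ)..1, ‖g j θ‖ ^ 2 := by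
  set f : ℕ → ℝ → ℂ := fun j => g j * fun θ => e (((H * j : ℤ) : ℝ) * θ) with hf
  have h1 : ∀ j : ℕ, f j ∈ Fr (0 + H * j) (H - 1 + H * j) := fun j =>
    Fr.mul (hg j) (Fr.e_mem le_rfl le_rfl)
  have h2 := fun j j' => Fr.mul (h1 j) (Fr.conj (h1 j'))
  apply Complex.ofReal_injective
  rw [← intervalIntegral.integral_ofReal, Complex.ofReal_sum]
  have e1 : ∀ θ, ((‖∑ j ∈ range p, g j θ * e (((H * j : ℤ) : ℝ) * θ)‖ ^ 2 : ℝ) : ℂ) =
      ∑ j ∈ range p, ∑ j' ∈ range p, (f j * star (f j')) θ := by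
    intro θ
    rw [Complex.ofReal_pow, ← Complex.mul_conj', map_sum, sum_mul_sum]
    rfl
  simp_rw [e1]
  rw [intervalIntegral.integral_finsetSum fun j _ => Continuous.intervalIntegrable
    (continuous_finsetSum _ fun j' _ => Fr.cont (h2 j j')) _ _]
  refine sum_congr rfl fun j hj => ?_
  rw [intervalIntegral.integral_finsetSum fun j' _ => (Fr.cont (h2 j j')).intervalIntegrable _ _,
    sum_eq_single j]
  · rw [← intervalIntegral.integral_ofReal]
    congr 1
    funext θ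
    rw [Pi.mul_apply, Pi.star_apply, RCLike.star_def, Complex.mul_conj']
    simp [hf]
  · intro j' _ hne
    refine Fr.integral_zero ?_ (h2 j j')
    rcases lt_or_gt_of_ne hne with h | h
    · left
      have : (j' : ℤ) + 1 ≤ j := by exact_mod_cast h
      nlinarith [mul_le_mul_of_nonneg_left this (Int.natCast_nonneg H)]
    · right
      have : (j : ℤ) + 1 ≤ j' := by exact_mod_cast h
      nlinarith [mul_le_mul_of_nonneg_left this (Int.natCast_nonneg H)]
  · intro h; exact absurd hj h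

theorem decouple {Φ : ℝ → ℝ} (hc : Continuous Φ) (hp : Function.Periodic Φ 1) {H : ℕ} (hH : 0 < H)
    (S : Finset ℤ) (hS : ∀ a ∈ S, 0 ≤ a ∧ a < H) :
    ∫ θ in (0 : ℝ)..1, ‖∑ a ∈ S, e (a * θ)‖ ^ 2 * Φ (H * θ) = S.card * ∫ θ in (0 : ℝ)..1, Φ θ := by
  have hH' : (H : ℝ) ≠ 0 := by positivity
  have h0 : ∫ θ in (0 : ℝ)..1, Φ (H * θ) = ∫ θ in (0 : ℝ)..1, Φ θ := by
    rw [intervalIntegral.integral_comp_mul_left _ hH', mul_zero, mul_one]
    have := hp.intervalIntegral_add_zsmul_eq H 0 (fun a b => hc.intervalIntegrable a b)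
    simp only [zero_add, zsmul_eq_mul, mul_one, Int.cast_natCast] at this
    rw [this, smul_eq_mul]
    field_simp
  have h1 : ∀ m : ℤ, m ≠ 0 → |m| < H → ∫ θ in (0 : ℝ)..1, e (m * θ) * (Φ (H * θ) : ℂ) = 0 := by
    intro m hm hmH
    have hper : Function.Periodic (fun θ : ℝ => e (m * θ) * (Φ (H * θ) : ℂ)) 1 := by
      intro θ
      have := hp.nat_mul H (H * θ)
      simp only [mul_add, mul_one, e_add_int] at this ⊢
      rw [this]
    have h2 := integral_shift hper (1 / H)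
    have h3 : ∀ θ : ℝ, e (m * (θ - 1 / H)) * (Φ (H * (θ - 1 / H)) : ℂ) =
        e (-(m / H)) * (e (m * θ) * (Φ (H * θ) : ℂ)) := by
      intro θ
      rw [show (H : ℝ) * (θ - 1 / H) = H * θ - 1 by field_simp, hp.sub_eq,
        show (m : ℝ) * (θ - 1 / H) = -(m / H) + m * θ by ring, e_add, mul_assoc]
    simp_rw [h3] at h2
    rw [intervalIntegral.integral_const_mul] at h2
    have h4 : e (-(m / H)) ≠ 1 := by
      rw [Ne, e_eq_one_iff]
      rintro ⟨k, hk⟩
      have h5 : (m : ℝ) = H * (-k : ℤ) := by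
        push_cast
        rw [← hk]; field_simp
      have h6 : m = H * (-k) := by exact_mod_cast h5
      have h7 := Int.le_of_dvd (abs_pos.mpr hm) ((dvd_abs _ _).mpr ⟨_, h6⟩)
      omega
    by_contra hne
    exact h4 (mul_right_cancel₀ hne (by rw [h2, one_mul]))
  apply Complex.ofReal_injective
  rw [← intervalIntegral.integral_ofReal]
  have e1 : ∀ θ, ((‖∑ a ∈ S, e (a * θ)‖ ^ 2 * Φ (H * θ) : ℝ) : ℂ) =
      ∑ a ∈ S, ∑ a' ∈ S, e (((a - a' : ℤ) : ℝ) * θ) * (Φ (H * θ) : ℂ) := by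
    intro θ
    have := normsq_expand S (fun _ => 1) (fun a => a) θ
    simp only [one_mul, map_one] at this
    rw [Complex.ofReal_mul, this]
    simp only [sum_mul]
  simp_rw [e1]
  rw [intervalIntegral.integral_finsetSum fun j _ => Continuous.intervalIntegrable
    (by fun_prop) _ _]
  rw [Complex.ofReal_mul, Complex.ofReal_natCast, ← nsmul_eq_mul, ← sum_const]
  refine sum_congr rfl fun a ha => ?_
  rw [intervalIntegral.integral_finsetSum fun j _ => Continuous.intervalIntegrable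
    (by fun_prop) _ _, sum_eq_single a]
  · simp only [sub_self, Int.cast_zero, zero_mul, e_zero, one_mul]
    rw [intervalIntegral.integral_ofReal, h0]
  · intro a' ha' hne
    have := hS a ha
    have := hS a' ha'
    exact h1 _ (by omega) (abs_lt.mpr ⟨by omega, by omega⟩)
  · intro h; exact absurd ha h

theorem continuous_Bf (p : ℕ) (b : ℕ → ℝ) : Continuous (Bf p b) := by
  unfold Bf; fun_prop

theorem parseval_Bf (p : ℕ) (b : ℕ → ℝ) :
    ∫ τ in (0 : ℝ)..1, ‖Bf p b τ‖ ^ 2 = (∑ j ∈ range p, b j ^ 2) / p := by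
  have := parseval (range p) (fun j => (b j : ℂ)) (fun j => (j : ℤ))
    (fun a _ b _ h => Nat.cast_injective (R := ℤ) h)
  simp only [Complex.norm_real, Real.norm_eq_abs, sq_abs, Int.cast_natCast] at this
  unfold Bf
  simp only [norm_mul, mul_pow, Complex.norm_real, Real.norm_eq_abs, sq_abs]
  rw [intervalIntegral.integral_const_mul, this, inv_pow, Real.sq_sqrt (Nat.cast_nonneg p)]
  ring

theorem flat_local {N : ℕ} (hN : 0 < N) {X : Type} [Fintype X] [DecidableEq X]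
    (hX : Fintype.card X = N + 1) (b : X → ℝ) (hK : InK N b) :
    ∃ (x : X) (a : ℝ), 0 ≤ a ∧ a ≤ 1 ∧
      a ≤ 1 - ∑ y, b y ^ 2 + 2 * (∑ y, b y) ^ 2 / N + 2 / N ∧
      ∀ (w : ℂ) (u : X → ℂ), ‖w‖ ≤ 2 → (∀ y, ‖u y‖ = 1) → ‖w * ∑ y, u y‖ ≤ 2 →
        ‖w * (u x - ∑ y, (b y : ℂ) * u y)‖ ≤ 6 * a + 2 / N := by
  have hN1 : (1 : ℝ) ≤ N := by exact_mod_cast hN
  have hN0 : (0 : ℝ) < N := by linarith
  have : Nonempty X := Fintype.card_pos_iff.mp (by omega)
  set s := ∑ y, b y with hs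
  set qs := (s + 1 / N) / N with hqs
  set g := qs - 1 / N with hg
  set q : X → ℝ := fun y => b y - g with hq
  have hqs0 : 0 ≤ qs := div_nonneg (by linarith [hK.1]) hN0.le
  have hq0 : ∀ y, 0 ≤ q y := fun y => by
    have := hK.2 y
    simp only [hq, hg]; linarith
  have hsum : ∑ y, q y = 1 - qs := by
    simp only [hq, sum_sub_distrib, sum_const, card_univ, hX, nsmul_eq_mul]
    rw [← hs, hg, hqs]
    push_cast
    field_simp
    ring
  obtain ⟨x, -, hx⟩ := exists_max_image univ q univ_nonempty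
  have hxle : q x ≤ ∑ y, q y := single_le_sum (fun y _ => hq0 y) (mem_univ x)
  refine ⟨x, 1 - q x, by linarith, by linarith [hq0 x], ?_, fun w u hw hu hwu => ?_⟩
  · have h1 : ∑ y, q y ^ 2 ≤ q x * ∑ y, q y := by
      rw [mul_sum]
      exact sum_le_sum fun y _ => by nlinarith [hx y (mem_univ y), hq0 y]
    have h2 : ∑ y, q y ^ 2 = ∑ y, b y ^ 2 - 2 * g * s + ∑ y : X, g ^ 2 := by
      rw [hs, mul_sum, ← sum_sub_distrib, ← sum_add_distrib]
      exact sum_congr rfl fun y _ => by simp only [hq]; ring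
    have h3 : 0 ≤ ∑ y : X, g ^ 2 := by positivity
    have h4 : g * s ≤ s ^ 2 / N + 1 / N := by
      have e : g * s = s ^ 2 / N + (1 / N - 1 / N / N) * (-s) := by rw [hg, hqs]; ring
      have k1 : 1 / N / N ≤ 1 / (N : ℝ) := div_le_self (by positivity) hN1
      have k2 : 0 ≤ 1 / N / (N : ℝ) := by positivity
      have k3 : 1 / (N : ℝ) ≤ 1 := (div_le_one hN0).mpr hN1
      have k4 := mul_le_mul_of_nonneg_left (show -s ≤ 1 by linarith [hK.1])
        (show 0 ≤ 1 / N - 1 / N / (N : ℝ) by linarith)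
      linarith
    have h5 : q x * ∑ y, q y ≤ q x := by nlinarith [hq0 x]
    have e1 : 2 * s ^ 2 / N = 2 * (s ^ 2 / N) := by ring
    have e2 : 2 / (N : ℝ) = 2 * (1 / N) := by ring
    linarith
  · have e : w * (u x - ∑ y, (b y : ℂ) * u y) =
        w * (((1 - q x : ℝ) : ℂ) * u x - ∑ y ∈ univ.erase x, (q y : ℂ) * u y) -
          g * (w * ∑ y, u y) := by
      have : ∑ y, (b y : ℂ) * u y = ∑ y, (q y : ℂ) * u y + g * ∑ y, u y := by
        rw [mul_sum, ← sum_add_distrib]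
        exact sum_congr rfl fun y _ => by simp only [hq]; push_cast; ring
      rw [this, ← add_sum_erase univ _ (mem_univ x)]
      push_cast; ring
    have h1 : ‖∑ y ∈ univ.erase x, (q y : ℂ) * u y‖ ≤ 1 - q x := by
      refine (norm_sum_le _ _).trans ?_
      simp only [norm_mul, hu, mul_one, Complex.norm_real, Real.norm_of_nonneg (hq0 _)]
      have := add_sum_erase univ q (mem_univ x)
      linarith
    have h2 : ‖((1 - q x : ℝ) : ℂ) * u x‖ = 1 - q x := by
      rw [norm_mul, hu, mul_one, Complex.norm_real, Real.norm_of_nonneg (by linarith)]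
    have h3 : |g| ≤ 1 - q x + 1 / N := by
      have : 0 ≤ 1 / (N : ℝ) := by positivity
      rw [abs_le, hg]
      constructor <;> linarith
    have h4 := mul_le_mul hw ((norm_sub_le _ _).trans (add_le_add h2.le h1)) (norm_nonneg _)
      (by norm_num)
    have h5 := mul_le_mul h3 hwu (norm_nonneg _) ((abs_nonneg _).trans h3)
    rw [e]
    refine (norm_sub_le _ _).trans ?_
    rw [norm_mul, norm_mul (g : ℂ), Complex.norm_real, Real.norm_eq_abs]
    have e2 : 2 / (N : ℝ) = 2 * (1 / N) := by ring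
    linarith

theorem flat_aux {N : ℕ} (hN : 0 < N) {X : Type} [Fintype X] [DecidableEq X]
    (hX : Fintype.card X = N + 1) {p : ℕ} (hp : 0 < p) (b : ℕ → X → ℝ) (Ψ : ℝ → ℝ) {γ : ℝ}
    (hγ0 : 0 < γ) (hγ1 : γ ≤ 1) (hK : ∀ j, InK N (b j)) (hc : Continuous Ψ)
    (hper : Function.Periodic Ψ 1) (hint : ∫ τ in (0 : ℝ)..1, Ψ τ ^ 2 ≤ γ ^ 2)
    (hΨ : ∀ τ, ∃ x, |‖Bf p (fun j => b j x) τ‖ - 1| +
        ∑ y ∈ univ.erase x, ‖Bf p (fun j => b j y) τ‖ ≤ Ψ τ) :
    ∃ ξ : ℕ → ℕ, (∀ j, ξ j ≤ N) ∧ ∀ (h H : ℕ) (S : Finset ℤ), h + N + 1 ≤ H →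
      (∀ a ∈ S, 0 ≤ a ∧ a < h) →
      ∫ θ in (0 : ℝ)..1, ‖e θ - 1‖ ^ 2 * ‖∑ a ∈ S, e (a * θ)‖ ^ 2 * (‖Pf p H ξ θ‖ - 1) ^ 2
        ≤ 2000 * (γ + 1 / N) * (S.card : ℝ) := by
  have hN1 : (1 : ℝ) ≤ N := by exact_mod_cast hN
  have hN0 : (0 : ℝ) < N := by linarith
  have hp0 : (0 : ℝ) < p := by exact_mod_cast hp
  let ι := Fintype.equivFinOfCardEq hX
  let xh : X → ℕ := fun x => ι x
  have hxh : ∀ x, xh x ≤ N := fun x => Nat.lt_succ_iff.mp (ι x).2
  choose xs a ha0 ha1 ha2 hR using fun j => flat_local hN hX (b j) (hK j)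
  have cB := fun x => continuous_Bf p (fun j => b j x)
  -- averages
  have A1 : (1 - 2 * γ) * p ≤ ∑ j ∈ range p, ∑ y, b j y ^ 2 := by
    rw [sum_comm, ← le_div_iff₀ hp0, sum_div]
    simp_rw [← parseval_Bf]
    rw [← intervalIntegral.integral_finsetSum fun y _ => Continuous.intervalIntegrable
      (by fun_prop) _ _]
    have h1 : ∫ τ in (0 : ℝ)..1, (1 - γ - γ⁻¹ * Ψ τ ^ 2) ≤
        ∫ τ in (0 : ℝ)..1, ∑ y, ‖Bf p (fun j => b j y) τ‖ ^ 2 := by
      refine intervalIntegral.integral_mono_on zero_le_one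
        (Continuous.intervalIntegrable (by fun_prop) _ _)
        (Continuous.intervalIntegrable (by fun_prop) _ _) fun τ _ => ?_
      obtain ⟨x, hx⟩ := hΨ τ
      have k1 : ‖Bf p (fun j => b j x) τ‖ ^ 2 ≤ ∑ y, ‖Bf p (fun j => b j y) τ‖ ^ 2 :=
        single_le_sum (f := fun y => ‖Bf p (fun j => b j y) τ‖ ^ 2) (fun y _ => by positivity)
          (mem_univ x)
      have k2 : 0 ≤ ∑ y ∈ univ.erase x, ‖Bf p (fun j => b j y) τ‖ := by positivity
      have k3 := neg_abs_le (‖Bf p (fun j => b j x) τ‖ - 1)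
      have k4 : 2 * Ψ τ ≤ γ + γ⁻¹ * Ψ τ ^ 2 := by
        have : γ + γ⁻¹ * Ψ τ ^ 2 - 2 * Ψ τ = γ⁻¹ * (Ψ τ - γ) ^ 2 := by field_simp; ring
        have : 0 ≤ γ⁻¹ * (Ψ τ - γ) ^ 2 := by positivity
        linarith
      nlinarith [sq_nonneg (‖Bf p (fun j => b j x) τ‖ - 1)]
    rw [intervalIntegral.integral_sub intervalIntegrable_const
      (Continuous.intervalIntegrable (by fun_prop) _ _), intervalIntegral.integral_const_mul] at h1
    simp only [intervalIntegral.integral_const, sub_zero, smul_eq_mul, one_mul] at h1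
    have h2 := mul_le_mul_of_nonneg_left hint (inv_pos.mpr hγ0).le
    have h3 : γ⁻¹ * γ ^ 2 = γ := by field_simp
    linarith
  have A2 : ∑ j ∈ range p, (∑ y, b j y) ^ 2 ≤ 4 * p := by
    rw [← div_le_iff₀ hp0, ← parseval_Bf]
    have h1 : ∫ τ in (0 : ℝ)..1, ‖Bf p (fun j => ∑ y, b j y) τ‖ ^ 2 ≤
        ∫ τ in (0 : ℝ)..1, (2 + 2 * Ψ τ ^ 2) := by
      have := continuous_Bf p (fun j => ∑ y, b j y)
      refine intervalIntegral.integral_mono_on zero_le_one
        (Continuous.intervalIntegrable (by fun_prop) _ _)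
        (Continuous.intervalIntegrable (by fun_prop) _ _) fun τ _ => ?_
      obtain ⟨x, hx⟩ := hΨ τ
      have e1 : Bf p (fun j => ∑ y, b j y) τ = ∑ y, Bf p (fun j => b j y) τ := by
        simp only [Bf, Complex.ofReal_sum, sum_mul, ← mul_sum]
        rw [sum_comm]
      have k1 := norm_sum_le univ (fun y => Bf p (fun j => b j y) τ)
      rw [← e1, ← add_sum_erase univ _ (mem_univ x)] at k1
      have k3 := le_abs_self (‖Bf p (fun j => b j x) τ‖ - 1)
      have k4 := pow_le_pow_left₀ (norm_nonneg _)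
        (show ‖Bf p (fun j => ∑ y, b j y) τ‖ ≤ 1 + Ψ τ by linarith) 2
      nlinarith [sq_nonneg (Ψ τ - 1)]
    rw [intervalIntegral.integral_add intervalIntegrable_const
      (Continuous.intervalIntegrable (by fun_prop) _ _), intervalIntegral.integral_const_mul] at h1
    simp only [intervalIntegral.integral_const, sub_zero, smul_eq_mul, one_mul] at h1
    nlinarith
  have A3 : ∑ j ∈ range p, a j ≤ (2 * γ + 10 * (1 / N)) * p := by
    refine (sum_le_sum fun j _ => ha2 j).trans ?_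
    simp only [sum_add_distrib, sum_sub_distrib, sum_const, card_range, nsmul_eq_mul, ← sum_div,
      ← mul_sum]
    have h1 : 2 * (∑ j ∈ range p, (∑ y, b j y) ^ 2) / N ≤ 2 * (4 * p) / N :=
      div_le_div_of_nonneg_right (by linarith) hN0.le
    have e1 : 2 * (4 * (p : ℝ)) / N = 8 * (1 / N) * p := by ring
    have e2 : (p : ℝ) * (2 / N) = 2 * (1 / N) * p := by ring
    linarith
  refine ⟨fun j => xh (xs j), fun j => hxh _, fun h H S hH hS => ?_⟩
  set Q : ℝ → ℂ := fun θ => ∑ a ∈ S, e (a * θ) with hQ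
  set R : ℕ → ℝ → ℂ := fun j θ =>
    (e θ - 1) * (e (xh (xs j) * θ) - ∑ y, (b j y : ℂ) * e (xh y * θ)) with hRd
  have hRb : ∀ j θ, ‖R j θ‖ ^ 2 ≤ 72 * a j + 8 * (1 / N) := by
    intro j θ
    have h1 := hR j (e θ - 1) (fun y => e (xh y * θ))
      ((norm_sub_le _ _).trans (by simp; norm_num)) (fun y => norm_e _) (by
        have e1 : ∑ y, e (xh y * θ) = ∑ k ∈ range (N + 1), e θ ^ k := by
          rw [← Fin.sum_univ_eq_sum_range (fun k => e θ ^ k), ← ι.sum_comp]
          exact sum_congr rfl fun y _ => e_nat_mul _ _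
        rw [e1, mul_geom_sum]
        exact (norm_sub_le _ _).trans (by simp; norm_num))
    have h2 := pow_le_pow_left₀ (norm_nonneg _) h1 2
    have k3 : 1 / (N : ℝ) ≤ 1 := (div_le_one hN0).mpr hN1
    have k4 : 0 ≤ 1 / (N : ℝ) := by positivity
    have e2 : 2 / (N : ℝ) = 2 * (1 / N) := by ring
    rw [e2] at h2
    nlinarith [sq_nonneg (3 * a j - 1 / N), ha0 j, ha1 j]
  have hQF : Q ∈ Fr 0 (h - 1) := by
    have : Q = ∑ a ∈ S, fun θ : ℝ => e (a * θ) := by funext θ; simp [hQ]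
    rw [this]
    exact Submodule.sum_mem _ fun a ha => Fr.e_mem (hS a ha).1 (by have := (hS a ha).2; omega)
  have hRF : ∀ j, R j ∈ Fr (0 + 0) (1 + N) := by
    intro j
    have h1 : ((fun θ : ℝ => e (((1 : ℤ) : ℝ) * θ)) - fun θ : ℝ => e (((0 : ℤ) : ℝ) * θ)) ∈ Fr 0 1 :=
      sub_mem (Fr.e_mem (by norm_num) le_rfl) (Fr.e_mem le_rfl (by norm_num))
    have h2 : ∀ y, (fun θ : ℝ => e (((xh y : ℤ) : ℝ) * θ)) ∈ Fr 0 N := fun y =>
      Fr.e_mem (by positivity) (by exact_mod_cast hxh y)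
    have h3 := Fr.mul h1 (sub_mem (h2 (xs j))
      (Submodule.sum_mem _ fun y (_ : y ∈ univ) => Submodule.smul_mem _ (b j y : ℂ) (h2 y)))
    convert h3 using 1
    funext θ
    simp [hRd]
  have hQR : ∀ j, Q * R j ∈ Fr 0 (H - 1) := by
    intro j
    refine Submodule.span_mono ?_ (Fr.mul hQF (hRF j))
    rintro _ ⟨k, k1, k2, rfl⟩
    exact ⟨k, by omega, by omega, rfl⟩
  have cQ := Fr.cont hQF
  have cR := fun j => Fr.cont (hRF j)
  have B1 := block_parseval p H (fun j => Q * R j) hQR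
  have B2 := decouple (Φ := fun τ => Ψ τ ^ 2) (by fun_prop) (fun τ => by simp only [hper τ])
    (H := H) (by omega) S (fun a ha => ⟨(hS a ha).1, by have := (hS a ha).2; omega⟩)
  have B3 : ∫ θ in (0 : ℝ)..1, ‖Q θ‖ ^ 2 = S.card := by
    have := parseval S (fun _ => 1) (fun a => a) (fun _ _ _ _ h => h)
    simpa using this
  have B4 : ∀ j, ∫ θ in (0 : ℝ)..1, ‖(Q * R j) θ‖ ^ 2 ≤ (72 * a j + 8 * (1 / N)) * S.card := by
    intro j
    rw [← B3, ← intervalIntegral.integral_const_mul]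
    have := cR j
    refine intervalIntegral.integral_mono_on zero_le_one
      (Continuous.intervalIntegrable (by fun_prop) _ _)
      (Continuous.intervalIntegrable (by fun_prop) _ _) fun θ _ => ?_
    rw [Pi.mul_apply, norm_mul, mul_pow, mul_comm]
    exact mul_le_mul_of_nonneg_right (hRb j θ) (by positivity)
  set W : ℝ → ℂ := fun θ => ∑ j ∈ range p, (Q * R j) θ * e (((H * j : ℤ) : ℝ) * θ) with hW
  have cW : Continuous W := continuous_finsetSum _ fun j _ =>
    (cQ.mul (cR j)).mul (by fun_prop)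
  have cP : Continuous (Pf p H fun j => xh (xs j)) := by unfold Pf; fun_prop
  have main : ∫ θ in (0 : ℝ)..1, ‖e θ - 1‖ ^ 2 * ‖Q θ‖ ^ 2 *
      (‖Pf p H (fun j => xh (xs j)) θ‖ - 1) ^ 2 ≤
      ∫ θ in (0 : ℝ)..1, (2 / p * ‖W θ‖ ^ 2 + 8 * (‖Q θ‖ ^ 2 * Ψ (H * θ) ^ 2)) := by
    refine intervalIntegral.integral_mono_on zero_le_one
      (Continuous.intervalIntegrable (by fun_prop) _ _)
      (Continuous.intervalIntegrable (by fun_prop) _ _) fun θ _ => ?_
    set Z : ℂ := ∑ y, Bf p (fun j => b j y) (H * θ) * e (xh y * θ) with hZ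
    set P := Pf p H (fun j => xh (xs j)) θ with hP
    have e1 : Q θ * ((e θ - 1) * (P - Z)) = ((√p)⁻¹ : ℝ) * W θ := by
      have e2 : P - Z = ((√p)⁻¹ : ℝ) * ∑ j ∈ range p,
          (e (xh (xs j) * θ) - ∑ y, (b j y : ℂ) * e (xh y * θ)) * e (((H * j : ℤ) : ℝ) * θ) := by
        simp only [hP, hZ, Pf, Bf, sub_mul, sum_sub_distrib, mul_sub, mul_assoc, ← mul_sum,
          sum_mul]
        congr 2
        · refine sum_congr rfl fun j _ => ?_
          rw [← e_add]; congr 1; push_cast; ring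
        · rw [sum_comm]
          refine sum_congr rfl fun j _ => sum_congr rfl fun y _ => ?_
          rw [mul_comm (e _)]
          congr 3; push_cast; ring
      rw [e2]
      simp only [hW, hRd, Pi.mul_apply, mul_sum]
      exact sum_congr rfl fun j _ => by ring
    have h1 : |‖Z‖ - 1| ≤ Ψ (H * θ) := by
      obtain ⟨x, hx⟩ := hΨ (H * θ)
      have k1 : ‖Z - Bf p (fun j => b j x) (H * θ) * e (xh x * θ)‖ ≤
          ∑ y ∈ univ.erase x, ‖Bf p (fun j => b j y) (H * θ)‖ := by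
        rw [hZ, ← add_sum_erase univ _ (mem_univ x), add_sub_cancel_left]
        exact (norm_sum_le _ _).trans (by simp)
      have k2 := abs_norm_sub_norm_le Z (Bf p (fun j => b j x) (H * θ) * e (xh x * θ))
      rw [norm_mul, norm_e, mul_one] at k2
      have k3 := abs_sub_le ‖Z‖ ‖Bf p (fun j => b j x) (H * θ)‖ 1
      linarith
    have h2 : |‖P‖ - 1| ≤ ‖P - Z‖ + Ψ (H * θ) := by
      linarith [abs_sub_le ‖P‖ ‖Z‖ 1, abs_norm_sub_norm_le P Z]
    have h3 : ‖e θ - 1‖ ≤ 2 := (norm_sub_le _ _).trans (by simp; norm_num)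
    have h4 : (‖Q θ‖ * (‖e θ - 1‖ * ‖P - Z‖)) ^ 2 = 1 / p * ‖W θ‖ ^ 2 := by
      rw [← norm_mul, ← norm_mul, e1, norm_mul, mul_pow, Complex.norm_real, Real.norm_eq_abs,
        sq_abs, inv_pow, Real.sq_sqrt hp0.le, one_div]
    have hΨ0 : 0 ≤ Ψ (H * θ) := (abs_nonneg _).trans h1
    have h5 : ‖e θ - 1‖ * ‖Q θ‖ * |‖P‖ - 1| ≤
        ‖Q θ‖ * (‖e θ - 1‖ * ‖P - Z‖) + 2 * (‖Q θ‖ * Ψ (H * θ)) := by
      have k1 := mul_le_mul_of_nonneg_left h2 (by positivity : 0 ≤ ‖e θ - 1‖ * ‖Q θ‖)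
      have k2 := mul_le_mul_of_nonneg_right h3 (by positivity : 0 ≤ ‖Q θ‖ * Ψ (H * θ))
      linarith
    have h6 := pow_le_pow_left₀ (by positivity) h5 2
    rw [mul_pow, mul_pow, sq_abs] at h6
    have e3 : 2 / (p : ℝ) * ‖W θ‖ ^ 2 = 2 * (1 / p * ‖W θ‖ ^ 2) := by ring
    rw [e3, ← h4, ← mul_pow ‖Q θ‖]
    nlinarith [sq_nonneg (‖Q θ‖ * (‖e θ - 1‖ * ‖P - Z‖) - 2 * (‖Q θ‖ * Ψ (H * θ)))]
  refine main.trans ?_
  rw [intervalIntegral.integral_add (Continuous.intervalIntegrable (by fun_prop) _ _)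
    (Continuous.intervalIntegrable (by fun_prop) _ _), intervalIntegral.integral_const_mul,
    intervalIntegral.integral_const_mul, B1, B2]
  have C1 : ∑ j ∈ range p, ∫ θ in (0 : ℝ)..1, ‖(Q * R j) θ‖ ^ 2 ≤
      (144 * γ + 728 * (1 / N)) * p * S.card := by
    refine (sum_le_sum fun j _ => B4 j).trans ?_
    rw [← sum_mul]
    refine mul_le_mul_of_nonneg_right ?_ (by positivity)
    simp only [sum_add_distrib, ← mul_sum, sum_const, card_range, nsmul_eq_mul]
    linarith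
  have C2 := mul_le_mul_of_nonneg_left C1 (by positivity : 0 ≤ 2 / (p : ℝ))
  have e4 : 2 / (p : ℝ) * ((144 * γ + 728 * (1 / N)) * p * S.card) =
      (288 * γ + 1456 * (1 / N)) * S.card := by field_simp; ring
  have C3 := mul_le_mul_of_nonneg_left (hint.trans (by nlinarith : γ ^ 2 ≤ γ))
    (Nat.cast_nonneg (α := ℝ) S.card)
  have k4 : 0 ≤ 1 / (N : ℝ) * S.card := by positivity
  have k5 : 0 ≤ γ * S.card := by positivity
  linarith

end Vale.Agent.P130
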