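import Vale.Agent.P130.Chirp
import Vale.Agent.P130.FlatAux
import Vale.Agent.P110.AssemblyAux

/-! A vector sequence in the convex set whose spectrum is carried by one letter at a time. -/

set_option linter.unusedVariables false

namespace Vale.Agent.P130

open Finset Filter MeasureTheory Vale.Agent.P110

/-- Measurable and square integrable on the unit interval. -/
def I2 (f : ℝ → ℂ) : Prop := Measurable f ∧ IntervalIntegrable (fun τ => ‖f τ‖ ^ 2) volume 0 1

theorem I2.of_cont {f : ℝ → ℂ} (hf : Continuous f) : I2 f :=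
  ⟨hf.measurable, Continuous.intervalIntegrable (by fun_prop) _ _⟩

theorem I2.of_bdd {f : ℝ → ℂ} (hf : Measurable f) (hb : ∀ τ, ‖f τ‖ ≤ 1) : I2 f :=
  ⟨hf, ii_of_bdd (hf.norm.pow_const 2) 1 (fun τ => by
    rw [norm_pow, norm_norm]; exact pow_le_one₀ (norm_nonneg _) (hb τ)) _ _⟩

theorem I2.add {f g : ℝ → ℂ} (hf : I2 f) (hg : I2 g) : I2 (fun τ => f τ + g τ) ∧
    ∫ τ in (0 : ℝ)..1, ‖f τ + g τ‖ ^ 2 ≤
      2 * (∫ τ in (0 : ℝ)..1, ‖f τ‖ ^ 2) + 2 * ∫ τ in (0 : ℝ)..1, ‖g τ‖ ^ 2 := by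
  have h0 := (hf.2.const_mul 2).add (hg.2.const_mul 2)
  have h1 : IntervalIntegrable (fun τ => ‖f τ + g τ‖ ^ 2) volume 0 1 :=
    h0.mono_fun' ((hf.1.add hg.1).norm.pow_const 2).aestronglyMeasurable
      (Eventually.of_forall fun τ => by
        simp only [norm_pow, norm_norm]; exact norm_add_sq_le _ _)
  refine ⟨⟨hf.1.add hg.1, h1⟩, ?_⟩
  rw [← intervalIntegral.integral_const_mul, ← intervalIntegral.integral_const_mul,
    ← intervalIntegral.integral_add (hf.2.const_mul 2) (hg.2.const_mul 2)]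
  exact intervalIntegral.integral_mono_on zero_le_one h1 h0 fun τ _ => norm_add_sq_le _ _

theorem I2.sub {f g : ℝ → ℂ} (hf : I2 f) (hg : I2 g) : I2 (fun τ => f τ - g τ) := by
  have h1 : I2 (fun τ => -g τ) := ⟨hg.1.neg, by simpa using hg.2⟩
  simpa only [sub_eq_add_neg] using (hf.add h1).1

theorem I2.sum {J : Type} (s : Finset J) {f : J → ℝ → ℂ} (hf : ∀ j, I2 (f j)) :
    I2 (fun τ => ∑ j ∈ s, f j τ) ∧ ∫ τ in (0 : ℝ)..1, ‖∑ j ∈ s, f j τ‖ ^ 2 ≤
      s.card * ∑ j ∈ s, ∫ τ in (0 : ℝ)..1, ‖f j τ‖ ^ 2 := by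
  have h0 : IntervalIntegrable (fun τ => ∑ j ∈ s, ‖f j τ‖ ^ 2) volume 0 1 := by
    have := IntervalIntegrable.sum s (fun j _ => (hf j).2)
    rwa [Finset.sum_fn] at this
  have hm : Measurable fun τ => ∑ j ∈ s, f j τ := Finset.measurable_sum _ fun j _ => (hf j).1
  have hb : ∀ τ, ‖∑ j ∈ s, f j τ‖ ^ 2 ≤ s.card * ∑ j ∈ s, ‖f j τ‖ ^ 2 := fun τ =>
    (pow_le_pow_left₀ (norm_nonneg _) (norm_sum_le _ _) 2).trans sq_sum_le_card_mul_sum_sq
  have h1 : IntervalIntegrable (fun τ => ‖∑ j ∈ s, f j τ‖ ^ 2) volume 0 1 :=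
    (h0.const_mul s.card).mono_fun' (hm.norm.pow_const 2).aestronglyMeasurable
      (Eventually.of_forall fun τ => by simp only [norm_pow, norm_norm]; exact hb τ)
  refine ⟨⟨hm, h1⟩, ?_⟩
  rw [← intervalIntegral.integral_finsetSum fun j _ => (hf j).2,
    ← intervalIntegral.integral_const_mul]
  exact intervalIntegral.integral_mono_on zero_le_one h1 (h0.const_mul _) fun τ _ => hb τ

theorem sum_range_mul' {A : Type} [AddCommMonoid A] (f : ℕ → A) (M n : ℕ) :
    ∑ j ∈ range (n * M), f j = ∑ r ∈ range n, ∑ m ∈ range M, f (r * M + m) := by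
  induction n with
  | zero => simp
  | succ n ih => rw [Nat.succ_mul, sum_range_add, ih, sum_range_succ]

theorem integral_arc {E : ℝ → ℂ} {σ : ℝ} (h0 : 0 < σ) (h1 : σ ≤ 1) (hm : Measurable E)
    (hE : ∀ τ, ‖E τ‖ = if 0 < Int.fract τ ∧ Int.fract τ < σ then 1 else 0) :
    ∫ τ in (0 : ℝ)..1, ‖E τ‖ ^ 2 = σ := by
  have hii : ∀ a b, IntervalIntegrable (fun τ => ‖E τ‖ ^ 2) volume a b :=
    ii_of_bdd (hm.norm.pow_const 2) 1 (fun τ => by rw [hE]; split_ifs <;> simp)
  have e1 : ∫ τ in (0 : ℝ)..σ, ‖E τ‖ ^ 2 = ∫ τ in (0 : ℝ)..σ, (1 : ℝ) := by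
    refine intervalIntegral.integral_congr_Ioo_of_le h0.le (fun τ hτ => ?_)
    have hf : Int.fract τ = τ := Int.fract_eq_self.mpr ⟨hτ.1.le, by linarith [hτ.2]⟩
    simp [hE, hf, hτ.1, hτ.2]
  have e2 : ∫ τ in σ..1, ‖E τ‖ ^ 2 = ∫ τ in σ..1, (0 : ℝ) := by
    refine intervalIntegral.integral_congr_Ioo_of_le h1 (fun τ hτ => ?_)
    have hf : Int.fract τ = τ := Int.fract_eq_self.mpr ⟨by linarith [hτ.1], hτ.2⟩
    simp [hE, hf, not_lt.mpr hτ.1.le]
  rw [← intervalIntegral.integral_add_adjacent_intervals (hii 0 σ) (hii σ 1), e1, e2]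
  simp

namespace VPre

variable {N : ℕ} {X : Type} [Fintype X] [DecidableEq X] {ε η : ℝ} (S : VPre N X ε η)

theorem s_le (i : S.ι) : S.s i ≤ S.G := by
  by_contra h
  have := (S.inj1 i i S.G 0 (by omega) (S.hs i) (by simp)).2
  have := S.hG
  omega

/-- Activity of a branch or of its mirror image at the point `θ`. -/
def act (θ : ℝ) : S.ι ⊕ S.ι → Prop
  | Sum.inl i => 0 < Int.fract (θ - S.C i / S.G) ∧ Int.fract (θ - S.C i / S.G) < S.s i / S.G
  | Sum.inr i => 0 < Int.fract (-θ - S.C i / S.G) ∧ Int.fract (-θ - S.C i / S.G) < S.s i / S.G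

theorem act_unique (θ : ℝ) (j j' : S.ι ⊕ S.ι) (hj : S.act θ j) (hj' : S.act θ j') : j = j' := by
  rcases j with i | i <;> rcases j' with i' | i'
  · obtain ⟨r, hr, h⟩ := active_pos S.hG _ _ _ hj.2
    obtain ⟨r', hr', h'⟩ := active_pos S.hG _ _ _ hj'.2
    have := S.inj1 i i' r r' hr hr' ((dvd_sub h' h).trans (dvd_of_eq (by ring)))
    rw [this.1]
  · obtain ⟨r, hr, h⟩ := active_pos S.hG _ _ _ hj.2
    obtain ⟨r', hr', h'⟩ := active_neg S.hG _ _ _ hj'.1 hj'.2
    exact (S.inj2 i i' r r' hr hr' ((dvd_sub h' h).trans (dvd_of_eq (by ring)))).elim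
  · obtain ⟨r, hr, h⟩ := active_neg S.hG _ _ _ hj.1 hj.2
    obtain ⟨r', hr', h'⟩ := active_pos S.hG _ _ _ hj'.2
    exact (S.inj2 i i' r r' hr hr' ((dvd_sub h h').trans (dvd_of_eq (by ring)))).elim
  · obtain ⟨r, hr, h⟩ := active_neg S.hG _ _ _ hj.1 hj.2
    obtain ⟨r', hr', h'⟩ := active_neg S.hG _ _ _ hj'.1 hj'.2
    have := S.inj1 i i' r r' hr hr' ((dvd_sub h h').trans (dvd_of_eq (by ring)))
    rw [this.1]

end VPre

/-- A piece and its mirror image. -/
noncomputable def mir {ι : Type} (f : ι → ℝ → ℂ) : ι ⊕ ι → ℝ → ℂ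
  | Sum.inl i => f i
  | Sum.inr i => fun τ => (starRingEnd ℂ) (f i (-τ))

theorem vflat {N : ℕ} {X : Type} [Fintype X] [DecidableEq X] [Nonempty X] {ε : ℝ} (hε : 0 < ε)
    (hP : ∀ η : ℝ, 0 < η → Nonempty (VPre N X ε η)) (p₀ : ℕ) :
    ∃ p : ℕ, p₀ ≤ p ∧ 0 < p ∧ ∃ (b : ℕ → X → ℝ) (Ψ : ℝ → ℝ), (∀ j, InK N (b j)) ∧
      Continuous Ψ ∧ Function.Periodic Ψ 1 ∧ ∫ τ in (0 : ℝ)..1, Ψ τ ^ 2 ≤ 4 * ε ∧
      ∀ τ, ∃ x, |‖Bf p (fun j => b j x) τ‖ - 1| +
        ∑ y ∈ univ.erase x, ‖Bf p (fun j => b j y) τ‖ ≤ Ψ τ := by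
  classical
  have hX0 : (0 : ℝ) < Fintype.card X := by exact_mod_cast Fintype.card_pos
  set c : ℝ := ε / (4 * (Fintype.card X : ℝ) ^ 2) with hc
  have hc0 : 0 < c := by positivity
  obtain ⟨P⟩ := hP √c (Real.sqrt_pos.mpr hc0)
  set nb := Fintype.card P.β with hnb
  have hnb0 : 0 < nb := Fintype.card_pos
  let ρ := Fintype.equivFin P.β
  have hG : (0 : ℝ) < P.G := by exact_mod_cast P.hG
  set nJ : ℝ := (Fintype.card (P.ι ⊕ P.ι) : ℝ) with hnJ
  have hnJ0 : 0 ≤ nJ := Nat.cast_nonneg _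
  set σ : P.ι → ℝ := fun i => P.s i / P.G with hσ
  have hσ0 : ∀ i, 0 < σ i := fun i => div_pos (by exact_mod_cast P.hs i) hG
  have hσ1 : ∀ i, σ i ≤ 1 := fun i => (div_le_one hG).mpr (by exact_mod_cast P.s_le i)
  obtain ⟨M, hM1, hM2, hM⟩ := ((eventually_all.2 fun i : P.ι =>
    chirp (σ i) (c / (nJ + 1) ^ 2) (hσ0 i) (hσ1 i) (by positivity)).and
    ((eventually_ge_atTop p₀).and (eventually_gt_atTop 0))).exists
  choose E mE pE nE hE using hM1
  have hMr : (0 : ℝ) < M := by exact_mod_cast hM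
  have hp : 0 < nb * M := Nat.mul_pos hnb0 hM
  let bu : ℕ → P.β := fun j => ρ.symm ⟨j / M % nb, Nat.mod_lt _ hnb0⟩
  let lam : ℕ → ℝ := fun j => -(((j % M : ℕ) : ℝ) ^ 2 / (2 * P.G * M))
  choose b hbK hb using fun j : ℕ => P.bound (bu j) j (lam j)
  set bt : ℕ → X → ℝ := fun j x => ∑ i with P.bun i = bu j ∧ P.lab i = x,
    2 * ((√(P.s i * nb / P.G) : ℝ) * P.u i * e (-((j : ℤ) * P.C i / P.G) + P.s i * lam j)).re
    with hbt
  set B : X → ℝ → ℂ := fun x => Bf (nb * M) (fun j => b j x) with hB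
  have cB : ∀ x, Continuous (B x) := fun x => continuous_Bf _ _
  set Φ : X → ℝ → ℝ := fun x τ => |‖B x τ‖ - 1| + ∑ y ∈ univ.erase x, ‖B y τ‖ with hΦ
  have cΦ : ∀ x, Continuous (Φ x) := fun x => by simp only [hΦ]; fun_prop
  set Ψ : ℝ → ℝ := fun τ => univ.inf' univ_nonempty (fun x => Φ x τ) with hΨ
  have cΨ : Continuous Ψ := Continuous.finset_inf'_apply univ_nonempty fun x _ => cΦ x
  refine ⟨nb * M, hM2.trans (Nat.le_mul_of_pos_left _ hnb0), hp, b, Ψ, hbK, cΨ, fun τ => ?_, ?_,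
    fun τ => ?_⟩
  · have : ∀ x, B x (τ + 1) = B x τ := by
      intro x
      simp only [hB, Bf, mul_add, mul_one, e_add, e_natCast]
    simp only [hΨ, hΦ, this]
  swap
  · obtain ⟨x, -, hx⟩ := exists_mem_eq_inf' univ_nonempty (fun x => Φ x τ)
    exact ⟨x, hx.ge⟩
  -- the pieces
  set ph : P.ι → ℝ → ℂ := fun i τ => P.u i * e (((ρ (P.bun i) : ℕ) * M : ℕ) * (τ - P.C i / P.G))
    with hph
  have nph : ∀ i τ, ‖ph i τ‖ = 1 := fun i τ => by simp [hph, P.hu]
  have cph : ∀ i, Continuous (ph i) := fun i => by simp only [hph]; fun_prop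
  set ch : P.ι → ℝ → ℂ := fun i τ =>
    (√(σ i / M) : ℝ) * ∑ m ∈ range M, e (-(σ i * m ^ 2 / (2 * M))) * e (m * τ) with hch
  have cch : ∀ i, Continuous (ch i) := fun i => by simp only [hch]; fun_prop
  have pch : ∀ i, Function.Periodic (ch i) 1 := fun i τ => by
    simp only [hch, mul_add, mul_one, e_add, e_natCast]
  set S0 : P.ι → ℝ → ℂ := fun i τ => ph i τ * ch i (τ - P.C i / P.G) with hS0
  set E0 : P.ι → ℝ → ℂ := fun i τ => ph i τ * E i (τ - P.C i / P.G) with hE0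
  set lab : P.ι ⊕ P.ι → X := Sum.elim P.lab P.lab with hlab
  have cS0 : ∀ i, Continuous (S0 i) := fun i => (cph i).mul ((cch i).comp (by fun_prop))
  have mE0 : ∀ i, Measurable (E0 i) := fun i =>
    (cph i).measurable.mul ((mE i).comp (by fun_prop))
  have nE1 : ∀ j τ, ‖mir E0 j τ‖ = if P.act τ j then 1 else 0 := by
    rintro (i | i) τ
    · simp only [mir, hE0, norm_mul, nph, one_mul, nE, VPre.act]; congr
    · simp only [mir, hE0, RCLike.norm_conj, norm_mul, nph, one_mul, nE, VPre.act]; congr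
  have iE : ∀ j, I2 (mir E0 j) := by
    intro j
    refine I2.of_bdd ?_ (fun τ => by rw [nE1]; split_ifs <;> norm_num)
    rcases j with i | i
    · exact mE0 i
    · exact Complex.continuous_conj.measurable.comp ((mE0 i).comp measurable_neg)
  have iS : ∀ j, I2 (mir S0 j) := by
    rintro (i | i)
    · exact I2.of_cont (cS0 i)
    · exact I2.of_cont (Complex.continuous_conj.comp ((cS0 i).comp continuous_neg))
  have hshift : ∀ {f : ℝ → ℝ}, Function.Periodic f 1 → ∀ t : ℝ,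
      ∫ τ in (0 : ℝ)..1, f (-τ - t) = ∫ τ in (0 : ℝ)..1, f τ := by
    intro f hf t
    rw [integral_neg' (f := fun τ => f (τ - t)) (fun τ => by
      simp only [show τ + 1 - t = τ - t + 1 by ring, hf (τ - t)]), integral_shift hf]
  have hSE : ∀ j, ∫ τ in (0 : ℝ)..1, ‖mir S0 j τ - mir E0 j τ‖ ^ 2 ≤ c / (nJ + 1) ^ 2 := by
    have hper : ∀ i, Function.Periodic (fun τ => ‖ch i τ - E i τ‖ ^ 2) 1 := fun i τ => by
      simp only [pch i τ, pE i τ]
    rintro (i | i)
    · simp only [mir, hS0, hE0, ← mul_sub, norm_mul, nph, one_mul]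
      rw [integral_shift (hper i)]
      exact hE i
    · simp only [mir, hS0, hE0, ← map_sub, RCLike.norm_conj, ← mul_sub, norm_mul, nph, one_mul]
      rw [hshift (hper i)]
      exact hE i
  have hcov : 1 - ε ≤ ∑ j, ∫ τ in (0 : ℝ)..1, ‖mir E0 j τ‖ ^ 2 := by
    have hper : ∀ i, Function.Periodic (fun τ => ‖E i τ‖ ^ 2) 1 := fun i τ => by
      simp only [pE i τ]
    have h1 := fun i => integral_arc (hσ0 i) (hσ1 i) (mE i) (nE i)
    rw [Fintype.sum_sum_type]
    simp only [mir, hE0, RCLike.norm_conj, norm_mul, nph, one_mul]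
    simp only [fun i => integral_shift (hper i), fun i => hshift (hper i), h1, hσ, ← sum_div]
    have := P.cover
    rw [← add_div, le_div_iff₀ hG]
    linarith
  have hBt : ∀ x τ, Bf (nb * M) (fun j => bt j x) τ = ∑ j with lab j = x, mir S0 j τ := by
    intro x τ
    have e1 : ∑ j with lab j = x, mir S0 j τ =
        ∑ i with P.lab i = x, (S0 i τ + (starRingEnd ℂ) (S0 i (-τ))) := by
      rw [sum_filter, Fintype.sum_sum_type, sum_filter, ← sum_add_distrib]
      refine sum_congr rfl fun i _ => ?_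
      simp only [hlab, Sum.elim_inl, Sum.elim_inr, mir]
      split_ifs <;> simp
    rw [e1, Bf, sum_range_mul', ← Fin.sum_univ_eq_sum_range (fun r => ∑ m ∈ range M,
      ((bt (r * M + m) x : ℝ) : ℂ) * e (((r * M + m : ℕ) : ℝ) * τ)), ← ρ.sum_comp]
    have e2 : ∀ (β : P.β), ∀ m ∈ range M, ((bt (ρ β * M + m) x : ℝ) : ℂ) =
        ∑ i with P.lab i = x, if P.bun i = β then ((2 * ((√(P.s i * nb / P.G) : ℝ) * P.u i *
          e (-(((ρ β * M + m : ℕ) : ℝ) * P.C i / P.G) - σ i * m ^ 2 / (2 * M))).re : ℝ) : ℂ)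
          else 0 := by
      intro β m hm
      have hm' := mem_range.mp hm
      have k1 : bu (ρ β * M + m) = β := by
        apply ρ.injective
        simp only [bu, Equiv.apply_symm_apply]
        apply Fin.ext
        simp only
        rw [add_comm, Nat.add_mul_div_right _ _ hM, Nat.div_eq_of_lt hm', zero_add,
          Nat.mod_eq_of_lt (ρ β).2]
      have k2 : lam (ρ β * M + m) = -((m : ℝ) ^ 2 / (2 * P.G * M)) := by
        simp only [lam]
        rw [add_comm, Nat.add_mul_mod_self_right, Nat.mod_eq_of_lt hm']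
      simp only [hbt, k1, k2, Complex.ofReal_sum, sum_filter]
      refine sum_congr rfl fun i _ => ?_
      by_cases h1 : P.lab i = x <;> by_cases h2 : P.bun i = β <;> simp only [h1, h2, and_self,
        and_true, and_false, if_true, if_false, Complex.ofReal_zero]
      congr 5
      simp only [hσ]
      push_cast
      field_simp
      ring
    rw [sum_congr rfl fun β _ => sum_congr rfl fun m hm => by rw [e2 β m hm, sum_mul]]
    simp only [ite_mul, zero_mul]
    rw [sum_congr rfl fun β _ => sum_comm, sum_comm, mul_sum]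
    refine sum_congr rfl fun i _ => ?_
    rw [sum_comm]
    simp only [sum_ite_eq, mem_univ, if_true]
    simp only [hS0, hph, hch, mul_sum, map_sum, ← sum_add_distrib]
    refine sum_congr rfl fun m _ => ?_
    have k3 : ((√(σ i / M) : ℝ) : ℂ) =
        (((√((nb * M : ℕ) : ℝ))⁻¹ : ℝ) : ℂ) * (√(P.s i * nb / P.G) : ℝ) := by
      rw [← Complex.ofReal_mul, ← Real.sqrt_inv, ← Real.sqrt_mul (by positivity)]
      congr 2
      have : (nb : ℝ) ≠ 0 := by positivity
      simp only [hσ]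
      push_cast
      field_simp
    rw [← Complex.add_conj, k3]
    simp only [map_mul, Complex.conj_ofReal, conj_e]
    set r : ℕ := ((ρ (P.bun i) : Fin _) : ℕ)
    have k4 : e (-(((r * M + m : ℕ) : ℝ) * P.C i / P.G) - σ i * m ^ 2 / (2 * M)) *
        e (((r * M + m : ℕ) : ℝ) * τ) = e (((r * M : ℕ) : ℝ) * (τ - P.C i / P.G)) *
          (e (-(σ i * m ^ 2 / (2 * M))) * e (m * (τ - P.C i / P.G))) := by
      rw [← e_add, ← e_add, ← e_add]; congr 1; push_cast; ring
    have k5 : e (-(-(((r * M + m : ℕ) : ℝ) * P.C i / P.G) - σ i * m ^ 2 / (2 * M))) *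
        e (((r * M + m : ℕ) : ℝ) * τ) = e (-(((r * M : ℕ) : ℝ) * (-τ - P.C i / P.G))) *
          (e (- -(σ i * m ^ 2 / (2 * M))) * e (-(m * (-τ - P.C i / P.G)))) := by
      rw [← e_add, ← e_add, ← e_add]; congr 1; push_cast; ring
    linear_combination (((√((nb * M : ℕ) : ℝ))⁻¹ : ℝ) : ℂ) * (√(P.s i * nb / P.G) : ℝ) *
      (P.u i * k4 + (starRingEnd ℂ) (P.u i) * k5)
  set D : X → ℝ → ℂ := fun x τ => B x τ - ∑ j with lab j = x, mir E0 j τ with hD
  have hDx : ∀ x, I2 (D x) ∧ ∫ τ in (0 : ℝ)..1, ‖D x τ‖ ^ 2 ≤ 4 * c := by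
    intro x
    have e1 : D x = fun τ => Bf (nb * M) (fun j => b j x - bt j x) τ +
        ∑ j with lab j = x, (mir S0 j τ - mir E0 j τ) := by
      funext τ
      rw [sum_sub_distrib, ← hBt]
      simp only [hD, hB, Bf, Complex.ofReal_sub, sub_mul, sum_sub_distrib]
      ring
    have h1 := I2.sum (univ.filter fun j => lab j = x) (fun j => (iS j).sub (iE j))
    have h2 := (I2.of_cont (continuous_Bf (nb * M) (fun j => b j x - bt j x))).add h1.1
    rw [e1]
    refine ⟨h2.1, h2.2.trans ?_⟩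
    have h3 : ∫ τ in (0 : ℝ)..1, ‖Bf (nb * M) (fun j => b j x - bt j x) τ‖ ^ 2 ≤ c := by
      rw [parseval_Bf, div_le_iff₀ (by exact_mod_cast hp)]
      have := sum_le_card_nsmul (range (nb * M)) (fun j => (b j x - bt j x) ^ 2) c (fun j _ => by
        have k1 := (single_le_sum (f := fun x => |bt j x - b j x|) (fun y _ => abs_nonneg _)
          (mem_univ x)).trans (hb j)
        have k2 := pow_le_pow_left₀ (abs_nonneg _) k1 2
        rw [sq_abs, Real.sq_sqrt hc0.le] at k2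
        linarith [show (b j x - bt j x) ^ 2 = (bt j x - b j x) ^ 2 by ring])
      rw [card_range, nsmul_eq_mul] at this
      linarith
    have h4 := sum_le_card_nsmul (univ.filter fun j => lab j = x) _ _ (fun j _ => hSE j)
    rw [nsmul_eq_mul] at h4
    have h5 : (((univ.filter fun j => lab j = x).card : ℕ) : ℝ) ≤ nJ + 1 := by
      have : (univ.filter fun j => lab j = x).card ≤ Fintype.card (P.ι ⊕ P.ι) := card_le_univ _
      have : (((univ.filter fun j => lab j = x).card : ℕ) : ℝ) ≤ nJ := by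
        rw [hnJ]; exact_mod_cast this
      linarith
    have h6 := h1.2.trans (mul_le_mul h5 (h4.trans (mul_le_mul_of_nonneg_right h5 (by positivity)))
      (sum_nonneg fun j _ => intervalIntegral.integral_nonneg zero_le_one fun _ _ => by positivity)
      (by positivity))
    have e2 : (nJ + 1) * ((nJ + 1) * (c / (nJ + 1) ^ 2)) = c := by field_simp
    linarith
  have hpt : ∀ τ, Ψ τ ^ 2 ≤ 2 * Fintype.card X * ∑ x, ‖D x τ‖ ^ 2 +
      2 * (1 - ∑ j, ‖mir E0 j τ‖ ^ 2) := by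
    intro τ
    have h0 : 0 ≤ Ψ τ := (le_inf'_iff _ _).mpr fun x _ => by simp only [hΦ]; positivity
    have hle : ∀ x, Ψ τ ≤ Φ x τ := fun x => inf'_le _ (mem_univ x)
    have hcs : (∑ x, ‖D x τ‖) ^ 2 ≤ Fintype.card X * ∑ x, ‖D x τ‖ ^ 2 := sq_sum_le_card_mul_sum_sq
    have hz : ∀ j, ¬ P.act τ j → mir E0 j τ = 0 := fun j hj => by
      rw [← norm_eq_zero, nE1, if_neg hj]
    by_cases hact : ∃ j, P.act τ j
    · obtain ⟨j, hj⟩ := hact
      have hz' : ∀ j', j' ≠ j → mir E0 j' τ = 0 := fun j' h =>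
        hz j' fun h' => h (P.act_unique τ _ _ h' hj)
      have k1 : ∑ j, ‖mir E0 j τ‖ ^ 2 = 1 := by
        rw [sum_eq_single j (fun j' _ h => by simp [hz' j' h]) (by simp), nE1, if_pos hj, one_pow]
      have k2 : ∀ y, y ≠ lab j → D y τ = B y τ := by
        intro y hy
        simp only [hD]
        rw [sum_eq_zero, sub_zero]
        intro j' hj'
        exact hz' j' (by rintro rfl; exact hy (mem_filter.mp hj').2.symm)
      have k3 : D (lab j) τ = B (lab j) τ - mir E0 j τ := by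
        simp only [hD]
        rw [sum_eq_single j (fun j' _ h => hz' j' h) (by simp)]
      have k4 : Φ (lab j) τ ≤ ∑ x, ‖D x τ‖ := by
        rw [← add_sum_erase univ _ (mem_univ (lab j)), k3]
        refine add_le_add ?_ (le_of_eq (sum_congr rfl fun y hy => by rw [k2 y (ne_of_mem_erase hy)]))
        have := abs_norm_sub_norm_le (B (lab j) τ) (mir E0 j τ)
        rwa [nE1, if_pos hj] at this
      have k5 := pow_le_pow_left₀ h0 ((hle _).trans k4) 2
      have k6 : 0 ≤ Fintype.card X * ∑ x, ‖D x τ‖ ^ 2 := by positivity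
      rw [k1]
      linarith
    · push Not at hact
      have k1 : ∑ j, ‖mir E0 j τ‖ ^ 2 = 0 := sum_eq_zero fun j _ => by simp [hz j (hact j)]
      have k2 : ∀ y, D y τ = B y τ := by
        intro y
        simp only [hD]
        rw [sum_eq_zero fun j _ => hz j (hact j), sub_zero]
      obtain ⟨x⟩ := ‹Nonempty X›
      have k4 : Φ x τ ≤ ∑ x, ‖D x τ‖ + 1 := by
        simp only [k2]
        rw [← add_sum_erase univ _ (mem_univ x)]
        have : |‖B x τ‖ - 1| ≤ ‖B x τ‖ + 1 := by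
          rw [abs_le]; constructor <;> linarith [norm_nonneg (B x τ)]
        simp only [hΦ]
        linarith
      have k5 := pow_le_pow_left₀ h0 ((hle _).trans k4) 2
      rw [k1]
      nlinarith [sq_nonneg (∑ x, ‖D x τ‖ - 1)]
  have i1 : IntervalIntegrable (fun τ => ∑ x, ‖D x τ‖ ^ 2) volume 0 1 := by
    have := IntervalIntegrable.sum univ (fun x _ => (hDx x).1.2)
    rwa [Finset.sum_fn] at this
  have i2 : IntervalIntegrable (fun τ => ∑ j, ‖mir E0 j τ‖ ^ 2) volume 0 1 := by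
    have := IntervalIntegrable.sum univ (fun j _ => (iE j).2)
    rwa [Finset.sum_fn] at this
  have i3 : IntervalIntegrable (fun τ => 1 - ∑ j, ‖mir E0 j τ‖ ^ 2) volume 0 1 :=
    intervalIntegrable_const.sub i2
  refine (intervalIntegral.integral_mono_on zero_le_one
    (Continuous.intervalIntegrable (by fun_prop) _ _) ((i1.const_mul _).add (i3.const_mul 2))
    fun τ _ => hpt τ).trans ?_
  rw [intervalIntegral.integral_add (i1.const_mul _) (i3.const_mul 2),
    intervalIntegral.integral_const_mul, intervalIntegral.integral_const_mul,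
    intervalIntegral.integral_sub intervalIntegrable_const i2,
    intervalIntegral.integral_finsetSum fun x _ => (hDx x).1.2,
    intervalIntegral.integral_finsetSum fun j _ => (iE j).2]
  simp only [intervalIntegral.integral_const, sub_zero, smul_eq_mul, one_mul]
  have h1 := sum_le_card_nsmul univ _ _ (fun x _ => (hDx x).2)
  rw [card_univ, nsmul_eq_mul] at h1
  have h2 := mul_le_mul_of_nonneg_left h1 (by positivity : (0 : ℝ) ≤ 2 * Fintype.card X)
  have e3 : 2 * (Fintype.card X : ℝ) * (Fintype.card X * (4 * c)) = 2 * ε := by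
    rw [hc]; field_simp
  linarith

end Vale.Agent.P130
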