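import Vale.Agent.P130.Defs
import Vale.Agent.P110.Packing

/-! Packing of labelled branches. -/

namespace Vale.Agent.P130

open Finset Vale.Agent.P110

theorem InK.smul {N : ℕ} (hN : 0 < N) {X : Type} [Fintype X] {b : X → ℝ} (hb : InK N b) {κ : ℝ}
    (h0 : 0 ≤ κ) (h1 : κ ≤ 1) : InK N fun x => κ * b x := by
  have hN' : (1 : ℝ) ≤ N := by exact_mod_cast hN
  have hi : (0 : ℝ) < 1 / N := by positivity
  have hi2 : 1 / (N : ℝ) / N ≤ 1 / N := div_le_self hi.le hN'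
  refine ⟨?_, fun y => ?_⟩
  · rw [← mul_sum]
    nlinarith [hb.1]
  · rw [← mul_sum]
    have h2 := mul_le_mul_of_nonneg_left (hb.2 y) h0
    have h3 := mul_le_mul_of_nonneg_left hi2 (sub_nonneg.2 h1)
    have h4 : (κ * ∑ x, b x + 1 / N) / N =
        κ * ((∑ x, b x + 1 / N) / N) + (1 - κ) * (1 / N / N) := by ring
    rw [h4]
    linarith

theorem perturbed_vec {α X : Type} [Fintype α] [Fintype X] [DecidableEq X] (c : α → ℂ)
    (lab : α → X) (τ : α → ℝ) (θ : α → ℝ) (κ ε' : ℝ)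
    (hκ0 : 0 ≤ κ) (hκ : κ ≤ 1) (hθ : ∀ a, 1 - ε' ≤ θ a ∧ θ a ≤ 1) :
    ∑ x, |∑ a with lab a = x, 2 * (((κ * θ a : ℝ) : ℂ) * (c a * e (τ a))).re -
      κ * ∑ a with lab a = x, 2 * (c a * e (τ a)).re| ≤ ε' * (2 * ∑ a, ‖c a‖) := by
  have h1 : ∀ x, |∑ a with lab a = x, 2 * (((κ * θ a : ℝ) : ℂ) * (c a * e (τ a))).re -
      κ * ∑ a with lab a = x, 2 * (c a * e (τ a)).re| ≤
      ∑ a with lab a = x, ε' * (2 * ‖c a‖) := by
    intro x
    rw [mul_sum, ← sum_sub_distrib]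
    refine (abs_sum_le_sum_abs _ _).trans (sum_le_sum fun a _ => ?_)
    have h3 : |(c a * e (τ a)).re| ≤ ‖c a‖ := by
      refine (Complex.abs_re_le_norm _).trans ?_
      rw [norm_mul, norm_e, mul_one]
    have h6 : 0 ≤ 1 - θ a := by linarith [(hθ a).2]
    have h5 : 1 - θ a ≤ ε' := by linarith [(hθ a).1]
    rw [Complex.re_ofReal_mul,
      show 2 * (κ * θ a * (c a * e (τ a)).re) - κ * (2 * (c a * e (τ a)).re) =
        -(κ * (1 - θ a) * (2 * (c a * e (τ a)).re)) by ring, abs_neg, abs_mul, abs_mul, abs_mul,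
      abs_of_nonneg hκ0, abs_of_nonneg h6, abs_two]
    have h7 := abs_nonneg (c a * e (τ a)).re
    have h8 : κ * (1 - θ a) ≤ ε' := by nlinarith
    exact mul_le_mul h8 (by linarith) (by positivity) (h6.trans h5)
  refine (sum_le_sum fun x _ => h1 x).trans (le_of_eq ?_)
  rw [sum_fiberwise, mul_sum, mul_sum]

set_option maxHeartbeats 1600000 in
theorem exists_vpre {N : ℕ} {X : Type} [Fintype X] [DecidableEq X] (hN : 0 < N) {ε : ℝ}
    (hε0 : 0 < ε) (hε1 : ε ≤ 1 / 4) (R : VRes N X ε) (η : ℝ) (hη : 0 < η) :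
    Nonempty (VPre N X (2 * ε) η) := by
  classical
  obtain ⟨ε₁, hε₁⟩ : ∃ ε₁ : ℝ, ε₁ = ε := ⟨_, rfl⟩
  subst hε₁
  have hε₁0 : 0 < ε₁ := hε0
  have hε₁2 : ε₁ ≤ 1 / 4 := hε1
  -- weights
  obtain ⟨T, hT⟩ : ∃ T : ℝ, T = 2 * ∑ a, ‖R.c a‖ ^ 2 := ⟨_, rfl⟩
  have hTm : 1 - ε₁ ≤ T := hT ▸ R.mass
  have hT0 : 0 < T := by linarith
  obtain ⟨κ, hκ⟩ : ∃ κ : ℝ, κ = √((1 - ε₁) / T) := ⟨_, rfl⟩
  have hκsq : κ ^ 2 = (1 - ε₁) / T := hκ ▸ Real.sq_sqrt (div_nonneg (by linarith) hT0.le)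
  have hκ0 : 0 < κ := hκ ▸ Real.sqrt_pos.2 (div_pos (by linarith) hT0)
  have hκ1 : κ ≤ 1 := by
    rw [hκ, Real.sqrt_le_one, div_le_one hT0]; exact hTm
  have hc0 : ∀ a, 0 < ‖R.c a‖ := fun a => norm_pos_iff.2 (R.hc a)
  obtain ⟨w, hw⟩ : ∃ w : R.α → ℝ, w = fun a => κ ^ 2 * ‖R.c a‖ ^ 2 := ⟨_, rfl⟩
  have hw0 : ∀ a, 0 < w a := fun a => by have := hc0 a; simp only [hw]; positivity
  have hwsum : 2 * ∑ a, w a = 1 - ε₁ := by
    simp only [hw]
    rw [← mul_sum, hκsq]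
    have : 2 * ((1 - ε₁) / T * ∑ a, ‖R.c a‖ ^ 2) = (1 - ε₁) / T * T := by rw [hT]; ring
    rw [this]; field_simp
  -- slots
  obtain ⟨Λ, hΛ⟩ : ∃ Λ : ℕ, Λ = 2 * ∏ a, R.s a := ⟨_, rfl⟩
  have hΛ0 : 0 < Λ := hΛ ▸ Nat.mul_pos (by norm_num) (prod_pos fun a _ => R.hs a)
  have hsΛ : ∀ a, R.s a ∣ Λ := fun a => hΛ ▸ Dvd.dvd.mul_left (dvd_prod_of_mem _ (mem_univ a)) 2
  obtain ⟨lam, hlam⟩ : ∃ lam : R.α → ℕ, lam = fun a => Λ / R.s a := ⟨_, rfl⟩
  have hΛeq : ∀ a, Λ = R.s a * lam a := fun a => by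
    simp only [hlam]; exact (Nat.mul_div_cancel' (hsΛ a)).symm
  have hlam0 : ∀ a, 0 < lam a := fun a => by
    rcases Nat.eq_zero_or_pos (lam a) with h | h
    · have := hΛeq a
      rw [h] at this; omega
    · exact h
  have : Nonempty (Fin Λ) := ⟨⟨0, hΛ0⟩⟩
  obtain ⟨o, ho⟩ : ∃ o : Fin Λ → R.α → ℤ,
      o = fun (i : Fin Λ) (a : R.α) => (((i : ℕ) / lam a : ℕ) : ℤ) := ⟨_, rfl⟩
  obtain ⟨q, has, 𝒢, hq, h𝒢, has1, has2, hgood, hmarg⟩ :=
    coloring R.n R.z R.y R.hz R.hy0 R.hy1 o w hw0 (by rw [hwsum]; linarith)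
  obtain ⟨g, hg⟩ : ∃ g : ℕ, g = 𝒢.card := ⟨_, rfl⟩
  have hg0 : 0 < g := hg ▸ h𝒢.card_pos
  obtain ⟨A, hA⟩ : ∃ A : R.α → ℝ, A = fun a => R.s a * g / (w a * q * Λ) := ⟨_, rfl⟩
  have hA0 : ∀ a, 0 < A a := fun a => by
    have := hw0 a; have := R.hs a
    simp only [hA]; positivity
  obtain ⟨D, hD⟩ : ∃ D : ℕ,
      D = 2 * ∏ a, ∏ b, if a = b then 1 else (∑ i, R.n b i * R.y a i).natAbs := ⟨_, rfl⟩
  have hD0 : 0 < D := by
    rw [hD]
    refine Nat.mul_pos (by norm_num) (prod_pos fun a _ => prod_pos fun b _ => ?_)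
    split_ifs with h
    · norm_num
    · exact Int.natAbs_pos.2 (R.hy1 a b h)
  obtain ⟨ε', hε'⟩ : ∃ ε' : ℝ, ε' = min ε₁ η / (1 + 2 * ∑ a, ‖R.c a‖) := ⟨_, rfl⟩
  have hmin0 : 0 < min ε₁ η := lt_min hε0 hη
  have hmin1 : min ε₁ η ≤ ε₁ := min_le_left _ _
  have hmin2 : min ε₁ η ≤ η := min_le_right _ _
  have hSc : 0 ≤ 2 * ∑ a, ‖R.c a‖ := by positivity
  have hε'0 : 0 < ε' := by rw [hε']; positivity
  have hε'1 : ε' * (2 * ∑ a, ‖R.c a‖) ≤ η := by
    rw [hε', div_mul_eq_mul_div, div_le_iff₀ (by positivity)]; nlinarith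
  have hε'2 : ε' ≤ ε₁ := by
    rw [hε', div_le_iff₀ (by positivity)]; nlinarith
  obtain ⟨μ, hμ, p, hp0, hpp, hpD, hpA⟩ := moduli A hA0 ε' hε'0 D hD0
  -- pieces
  let β : Type := 𝒢 × Fin μ
  have hβcard : Fintype.card β = g * μ := by simp [β, hg]
  have : Nonempty β := by
    obtain ⟨x, hx⟩ := h𝒢
    exact ⟨(⟨x, hx⟩, ⟨0, hμ⟩)⟩
  let σ0 : R.α → β → ℤ := fun a r => ∑ j, R.n a j * r.1.1.2 j + o r.1.1.1 a
  let key : R.α → β → ZMod q × ℕ := fun a r => ((σ0 a r : ZMod q), (r.1.1.1 : ℕ) % lam a)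
  have hkey : ∀ a k, (univ.filter fun r => key a r = k).card ≤ p a := by
    rintro a ⟨x, π⟩
    have hq' : (0 : ℝ) < q := by exact_mod_cast hq
    have hΛ' : (0 : ℝ) < Λ := by exact_mod_cast hΛ0
    have hwa := hw0 a
    -- the set injects in a union
    obtain ⟨I, hI⟩ : ∃ I : Finset (Fin Λ),
        I = univ.filter fun i : Fin Λ => (i : ℕ) % lam a = π := ⟨_, rfl⟩
    obtain ⟨F, hF⟩ : ∃ F : Fin Λ → Finset (Fin Λ × (R.δ → ℤ)), F = fun i =>
      𝒢.filter fun pp => pp.1 = i ∧ ((∑ j, R.n a j * pp.2 j + o i a : ℤ) : ZMod q) = x := ⟨_, rfl⟩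
    have h1 : (univ.filter fun r => key a r = (x, π)).card
        ≤ ((I.biUnion F) ×ˢ (univ : Finset (Fin μ))).card := by
      apply card_le_card_of_injOn (fun r : β => (r.1.1, r.2))
      · intro r hr
        simp only [coe_filter, mem_univ, true_and, Set.mem_ofPred_eq, key, Prod.mk.injEq] at hr
        simp only [coe_product, Set.mem_prod, mem_coe, mem_biUnion, mem_univ, and_true]
        refine ⟨r.1.1.1, ?_, ?_⟩
        · simp [hI, hr.2]
        · simp only [hF, mem_filter, true_and]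
          exact ⟨r.1.2, hr.1⟩
      · intro r _ r' _ h
        simp only [Prod.mk.injEq] at h
        exact Prod.ext (Subtype.ext h.1) h.2
    have h2 : ((I.biUnion F).card : ℝ) ≤ A a := by
      have h3 : ((I.biUnion F).card : ℝ) ≤ ∑ i ∈ I, ((F i).card : ℝ) := by
        exact_mod_cast card_biUnion_le
      have h4 : ∀ i ∈ I, ((F i).card : ℝ) ≤ g / (w a * q * Λ) := by
        intro i _
        rw [le_div_iff₀ (by positivity)]
        have := hmarg a i x
        rw [Fintype.card_fin, ← hg] at this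
        simpa only [hF] using this
      have h5 : (I.card : ℝ) ≤ R.s a := by
        rw [hI]
        exact_mod_cast card_filter_mod_le (R.s a) (lam a) π (hlam0 a) Λ (hΛeq a)
      refine h3.trans ((sum_le_sum h4).trans ?_)
      rw [sum_const, nsmul_eq_mul]
      simp only [hA]
      rw [mul_div_assoc]
      exact mul_le_mul_of_nonneg_right h5 (by positivity)
    have h6 : ((univ.filter fun r => key a r = (x, π)).card : ℝ) ≤ p a := by
      have h7 : ((univ.filter fun r => key a r = (x, π)).card : ℝ)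
          ≤ ((I.biUnion F).card : ℝ) * μ := by
        have := h1
        rw [card_product, card_univ, Fintype.card_fin] at this
        exact_mod_cast this
      have h8 : (0 : ℝ) ≤ μ := by positivity
      have := (hpA a).1
      nlinarith
    exact_mod_cast h6
  choose lab hlab1 hlab2 using fun a => exists_label (key a) (p a) (hkey a)
  choose Z hZ using fun r : β =>
    exists_crt R.n R.z R.hz p hpp (fun a => (lab a r : ℤ) - σ0 a r / q)
  obtain ⟨Qa, hQa⟩ : ∃ Qa : R.α → ℕ, Qa = fun a => ∏ b ∈ univ.erase a, p b := ⟨_, rfl⟩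
  obtain ⟨Q, hQ⟩ : ∃ Q : ℕ, Q = ∏ b, p b := ⟨_, rfl⟩
  have hQeq : ∀ a, Q = p a * Qa a := fun a => by
    simp only [hQ, hQa]; exact (mul_prod_erase univ p (mem_univ a)).symm
  have hQa0 : ∀ a, 0 < Qa a := fun a => by
    simp only [hQa]; exact prod_pos fun b _ => hp0 b
  have hQ0 : 0 < Q := hQ ▸ prod_pos fun b _ => hp0 b
  have hpodd : ∀ a, Odd (p a) := fun a => by
    have : Nat.Coprime (p a) 2 := Nat.Coprime.coprime_dvd_right (Dvd.intro _ hD.symm) (hpD a)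
    exact (Nat.coprime_two_right).1 this
  have hQodd : ∀ a, Odd (Qa a) := fun a => by
    simp only [hQa]
    exact Finset.prod_induction _ Odd (fun _ _ => Odd.mul) odd_one (fun b _ => hpodd b)
  have hxcop : ∀ a, ∀ b ∈ univ.erase a, IsCoprime (∑ i, R.n a i * R.y b i) (p b : ℤ) := by
    intro a b hb
    have hne : b ≠ a := (mem_erase.1 hb).1
    have hdvd : (∑ i, R.n a i * R.y b i).natAbs ∣ D := by
      rw [hD]
      refine Dvd.dvd.mul_left ?_ 2
      refine dvd_trans ?_ (dvd_prod_of_mem _ (mem_univ b))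
      refine dvd_trans ?_ (dvd_prod_of_mem _ (mem_univ a))
      rw [if_neg hne]
    have := Nat.Coprime.coprime_dvd_right hdvd (hpD b)
    rw [Int.isCoprime_iff_gcd_eq_one, Int.gcd_eq_natAbs, Int.natAbs_natCast]
    exact this.symm
  choose Anum hAnum1 hAnum2 using fun a => exists_num (univ.erase a) p
    (fun b => ∑ i, R.n a i * R.y b i) (fun b _ => hp0 b) (fun b _ b' _ h => hpp b b' h) (hxcop a)
  choose uG huG1 huG2 using fun a => gauss (Qa a) (hQodd a) (Anum a)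
    (by simp only [hQa]; exact hAnum1 a)
  obtain ⟨G, hG⟩ : ∃ G : ℕ, G = Λ * (q * Q) := ⟨_, rfl⟩
  have hG0 : 0 < G := hG ▸ Nat.mul_pos hΛ0 (Nat.mul_pos hq hQ0)
  let ι : Type := β × (Σ a : R.α, Fin (Qa a))
  let σ : ι → ℤ := fun i => σ0 i.2.1 i.1 +
    q * (∑ j, R.n i.2.1 j * Z i.1 j + (i.2.2 : ℕ) * p i.2.1)
  let pos : ι → ℤ := fun i => R.s i.2.1 * (((i.1.1.1.1 : ℕ) % lam i.2.1 : ℕ) : ℤ)
  have hpos0 : ∀ i, 0 ≤ pos i := fun i => by simp only [pos]; positivity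
  have hposlt : ∀ i (r : ℕ), r < R.s i.2.1 → pos i + r < Λ := by
    intro i r hr
    have h1 : (i.1.1.1.1 : ℕ) % lam i.2.1 + 1 ≤ lam i.2.1 := Nat.mod_lt _ (hlam0 _)
    have h2 : R.s i.2.1 * ((i.1.1.1.1 : ℕ) % lam i.2.1) + r < Λ := by
      have h0 := hΛeq i.2.1
      have := Nat.mul_le_mul_left (R.s i.2.1) h1
      rw [mul_add] at this
      omega
    simp only [pos]
    exact_mod_cast h2
  have hGz : (G : ℤ) = Λ * (q * Q) := by simp [hG]
  -- amplitudes
  have hamp : ∀ a, (R.s a : ℝ) * (g * μ : ℕ) / G * Qa a = w a * (μ * A a / p a) := by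
    intro a
    have hq' : (q : ℝ) ≠ 0 := by positivity
    have hΛ' : (Λ : ℝ) ≠ 0 := by positivity
    have hp' : (p a : ℝ) ≠ 0 := by have := hp0 a; positivity
    have hQa' : (Qa a : ℝ) ≠ 0 := by have := hQa0 a; positivity
    have hwa : w a ≠ 0 := (hw0 a).ne'
    have : (G : ℝ) = Λ * (q * (p a * Qa a)) := by rw [hG, hQeq a]; push_cast; ring
    rw [this]
    simp only [hA]
    push_cast
    field_simp
  have hratio : ∀ a, 1 - ε' ≤ μ * A a / p a ∧ μ * A a / p a ≤ 1 := by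
    intro a
    have hp' : (0 : ℝ) < p a := by exact_mod_cast hp0 a
    have h1 := (hpA a).1
    have h2 := (hpA a).2
    have h3 : 0 < μ * A a := by have := hA0 a; positivity
    constructor
    · rw [le_div_iff₀ hp']; nlinarith
    · rw [div_le_one hp']; exact h1
  refine ⟨{ ι := ι, β := β, bun := Prod.fst, lab := fun i => R.lab i.2.1, G := G, C := fun i => Λ * σ i + pos i,
            s := fun i => R.s i.2.1,
            u := fun i => R.c i.2.1 / ‖R.c i.2.1‖ * uG i.2.1 i.2.2,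
            hG := hG0, hs := fun i => R.hs _, hu := ?_, inj1 := ?_, inj2 := ?_,
            cover := ?_, bound := ?_ }⟩
  · intro i
    have := hc0 i.2.1
    rw [norm_mul, huG1, norm_div, Complex.norm_real, norm_norm, div_self this.ne', one_mul]
  · rintro ⟨r, a, m⟩ ⟨r', a', m'⟩ t t' ht ht' h
    rw [hGz] at h
    have h' : (Λ : ℤ) * (q * Q) ∣ (Λ * σ (r, ⟨a, m⟩) + (pos (r, ⟨a, m⟩) + t)) -
        (Λ * σ (r', ⟨a', m'⟩) + (pos (r', ⟨a', m'⟩) + t')) := by
      convert h using 1; ring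
    obtain ⟨hx, hσ⟩ := cell_eq (by exact_mod_cast hΛ0)
      (add_nonneg (hpos0 _) (Int.natCast_nonneg _)) (hposlt _ _ ht)
      (add_nonneg (hpos0 _) (Int.natCast_nonneg _)) (hposlt _ _ ht') h'
    obtain ⟨τ, hτ⟩ := hσ
    simp only [σ] at hτ
    have hslot : ((σ0 a r : ℤ) : ZMod q) = ((σ0 a' r' : ℤ) : ZMod q) := by
      rw [ZMod.intCast_eq_intCast_iff_dvd_sub]
      exact ⟨(∑ j, R.n a j * Z r j + (m : ℕ) * p a) -
        (∑ j, R.n a' j * Z r' j + (m' : ℕ) * p a') - Q * τ, by linarith⟩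
    have ha : a = a' := by
      refine has1 a a' ((σ0 a r : ℤ) : ZMod q) (hgood _ r.1.2 a) ?_
      rw [hslot]; exact hgood _ r'.1.2 a'
    subst ha
    simp only [pos] at hx
    have hx' : R.s a * ((r.1.1.1 : ℕ) % lam a) + t = R.s a * ((r'.1.1.1 : ℕ) % lam a) + t' := by
      exact_mod_cast hx
    have htt : t = t' := by
      have h1 := congrArg (· % R.s a) hx'
      simp only [Nat.mul_add_mod] at h1
      rwa [Nat.mod_eq_of_lt ht, Nat.mod_eq_of_lt ht'] at h1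
    subst htt
    have hmod : (r.1.1.1 : ℕ) % lam a = (r'.1.1.1 : ℕ) % lam a :=
      Nat.eq_of_mul_eq_mul_left (R.hs a) (by omega)
    have hkeyeq : key a r = key a r' := by simp only [key, hslot, hmod]
    have hq' : (q : ℤ) ≠ 0 := by exact_mod_cast hq.ne'
    have hrem : σ0 a r % q = σ0 a r' % q := (ZMod.intCast_eq_intCast_iff' _ _ _).1 hslot
    have hd1 := Int.mul_ediv_add_emod (σ0 a r) q
    have hd2 := Int.mul_ediv_add_emod (σ0 a r') q
    have hint : (σ0 a r / q + ∑ j, R.n a j * Z r j + (m : ℕ) * p a) -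
        (σ0 a r' / q + ∑ j, R.n a j * Z r' j + (m' : ℕ) * p a) = Q * τ := by
      apply mul_left_cancel₀ hq'
      linarith
    obtain ⟨z1, hz1⟩ := hZ r a
    obtain ⟨z2, hz2⟩ := hZ r' a
    have hQz : (Q : ℤ) = p a * Qa a := by exact_mod_cast hQeq a
    have hlabeq : lab a r = lab a r' := by
      have hdv : (p a : ℤ) ∣ (lab a r' : ℤ) - lab a r :=
        ⟨z1 - z2 + (m : ℕ) - (m' : ℕ) - Qa a * τ, by rw [hQz] at hint; linarith⟩
      have := (Nat.modEq_iff_dvd.2 hdv)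
      exact Nat.ModEq.eq_of_lt_of_lt this (hlab1 a r) (hlab1 a r')
    have hrr : r = r' := hlab2 a r r' hkeyeq hlabeq
    subst hrr
    have hp' : (p a : ℤ) ≠ 0 := by exact_mod_cast (hp0 a).ne'
    have hmm : ((m : ℕ) : ℤ) - (m' : ℕ) = Qa a * τ := by
      apply mul_left_cancel₀ hp'
      rw [hQz] at hint; linarith
    have hm : m = m' := by
      apply Fin.ext
      have hdv : (Qa a : ℤ) ∣ ((m : ℕ) : ℤ) - (m' : ℕ) := ⟨τ, hmm⟩
      exact (Nat.ModEq.eq_of_lt_of_lt (Nat.modEq_iff_dvd.2 hdv) m'.2 m.2).symm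
    subst hm
    exact ⟨rfl, rfl⟩
  · rintro ⟨r, a, m⟩ ⟨r', a', m'⟩ t t' ht ht' h
    rw [hGz] at h
    have h' : (Λ : ℤ) * (q * Q) ∣ (Λ * σ (r, ⟨a, m⟩) + (pos (r, ⟨a, m⟩) + t)) +
        (Λ * σ (r', ⟨a', m'⟩) + (pos (r', ⟨a', m'⟩) + t')) + 1 := by
      convert h using 1; ring
    obtain ⟨τ, hτ⟩ := cell_refl (by exact_mod_cast hΛ0)
      (add_nonneg (hpos0 _) (Int.natCast_nonneg _)) (hposlt _ _ ht)
      (add_nonneg (hpos0 _) (Int.natCast_nonneg _)) (hposlt _ _ ht') h'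
    simp only [σ] at hτ
    have hslot : ((σ0 a r : ℤ) : ZMod q) = ((-1 - σ0 a' r' : ℤ) : ZMod q) := by
      rw [ZMod.intCast_eq_intCast_iff_dvd_sub]
      exact ⟨(∑ j, R.n a j * Z r j + (m : ℕ) * p a) +
        (∑ j, R.n a' j * Z r' j + (m' : ℕ) * p a') - Q * τ, by linarith⟩
    refine has2 a' a ((σ0 a' r' : ℤ) : ZMod q) (hgood _ r'.1.2 a') ?_
    have := hgood _ r.1.2 a
    change has a ((σ0 a r : ℤ) : ZMod q) at this
    rw [hslot] at this
    push_cast at this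
    exact this
  · have h1 : ∑ i : ι, (R.s i.2.1 : ℝ) = ∑ a, (R.s a : ℝ) * (g * μ : ℕ) * Qa a := by
      simp only [ι]
      rw [Fintype.sum_prod_type]
      dsimp only
      rw [sum_const, card_univ, hβcard, nsmul_eq_mul, Fintype.sum_sigma, mul_sum]
      refine sum_congr rfl fun a _ => ?_
      simp only [sum_const, card_univ, Fintype.card_fin, nsmul_eq_mul]
      ring
    have hG' : (0 : ℝ) < G := by exact_mod_cast hG0
    have h2 : ∀ a, (1 - ε') * w a * G ≤ (R.s a : ℝ) * (g * μ : ℕ) * Qa a := by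
      intro a
      have h3 := hamp a
      have h4 : (R.s a : ℝ) * (g * μ : ℕ) * Qa a = w a * (μ * A a / p a) * G := by
        rw [← h3]; field_simp
      rw [h4]
      have := (hratio a).1
      have h5 := hw0 a
      apply mul_le_mul_of_nonneg_right _ hG'.le
      nlinarith
    have h3 : (1 - ε') * (∑ a, w a) * G ≤ ∑ a, (R.s a : ℝ) * (g * μ : ℕ) * Qa a := by
      rw [mul_sum, sum_mul]
      exact sum_le_sum fun a _ => h2 a
    change (1 - 2 * ε₁) * (G : ℝ) ≤ 2 * ∑ i : ι, (R.s i.2.1 : ℝ)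
    rw [h1]
    have h4 : ∑ a, w a = (1 - ε₁) / 2 := by linarith
    rw [h4] at h3
    have h5 : 1 - 2 * ε₁ ≤ (1 - ε') * (1 - ε₁) := by nlinarith
    nlinarith
  · intro r k lamb
    obtain ⟨t, ht⟩ : ∃ t : R.δ → ℝ, t = fun j =>
      -(k * ((Λ * r.1.1.2 j + (r.1.1.1 : ℕ) * R.v j + Λ * q * Z r j : ℤ) : ℝ) / G)
        + lamb * R.v j + k ^ 2 * ∑ b, (R.y b j : ℝ) / p b := ⟨_, rfl⟩
    have hb := perturbed_vec R.c R.lab (fun a => ∑ j, R.n a j * t j)
      (fun a => √(μ * A a / p a)) κ ε'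
      hκ0.le hκ1 (fun a => ⟨by
        have h1 := hratio a
        have h2 : 0 ≤ μ * A a / p a := by linarith [h1.1]
        refine h1.1.trans ?_
        rw [Real.le_sqrt h2 h2]
        nlinarith [h1.2], Real.sqrt_le_one.2 (hratio a).2⟩)
    refine ⟨_, (R.bound t).smul hN hκ0.le hκ1, le_trans (le_of_eq ?_) (hb.trans hε'1)⟩
    refine sum_congr rfl fun x _ => ?_
    congr 2
    change ∑ i : ι with i.1 = r ∧ R.lab i.2.1 = x, _ = _
    rw [sum_filter, sum_filter]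
    simp only [ι]
    rw [Fintype.sum_prod_type, sum_eq_single r
      (fun y _ hy => by simp only [hy, false_and, if_false, sum_const_zero])
      (fun h => absurd (mem_univ r) h)]
    simp only [true_and]
    rw [Fintype.sum_sigma]
    refine sum_congr rfl fun a _ => ?_
    dsimp only
    split_ifs with hax
    swap
    · exact sum_const_zero
    rw [← mul_sum, ← Complex.re_sum]
    congr 2
    have hG' : (G : ℝ) ≠ 0 := by positivity
    have hphase : ∀ m : Fin (Qa a),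
        -((k : ℝ) * ((Λ * σ (r, ⟨a, m⟩) + pos (r, ⟨a, m⟩) : ℤ) : ℝ) / G) + R.s a * lamb
        = (∑ j, (R.n a j : ℝ) * t j - Anum a * k ^ 2 / Qa a) + -(k * (m : ℕ) / Qa a) := by
      intro m
      have hv : ∑ j, (R.n a j : ℝ) * R.v j = R.s a := by exact_mod_cast R.hv a
      have hy : ∑ j, (R.n a j : ℝ) * ∑ b, (R.y b j : ℝ) / p b = Anum a / Qa a := by
        have h1 := hAnum2 a
        simp only [hQa]
        rw [h1]
        simp_rw [mul_sum]
        rw [sum_comm, ← add_sum_erase univ _ (mem_univ a)]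
        have h0 : ∑ j, (R.n a j : ℝ) * ((R.y a j : ℝ) / p a) = 0 := by
          have : ∑ j, (R.n a j : ℝ) * R.y a j = 0 := by exact_mod_cast R.hy0 a
          simp_rw [← mul_div_assoc]
          rw [← sum_div, this, zero_div]
        rw [h0, zero_add]
        refine sum_congr rfl fun b _ => ?_
        push_cast
        rw [sum_div]
        refine sum_congr rfl fun j _ => ?_
        ring
      have hC : (Λ * σ (r, ⟨a, m⟩) + pos (r, ⟨a, m⟩) : ℤ) =
          ∑ j, R.n a j * (Λ * r.1.1.2 j + (r.1.1.1 : ℕ) * R.v j + Λ * q * Z r j)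
            + Λ * q * ((m : ℕ) * p a) := by
        simp only [σ, pos, σ0, ho]
        have h1 : ((r.1.1.1 : ℕ) : ℤ) = lam a * (((r.1.1.1 : ℕ) / lam a : ℕ) : ℤ) +
            (((r.1.1.1 : ℕ) % lam a : ℕ) : ℤ) := by
          exact_mod_cast (Nat.div_add_mod _ _).symm
        have h2 : (Λ : ℤ) = R.s a * lam a := by exact_mod_cast hΛeq a
        have h3 : ∑ j, R.n a j * (Λ * r.1.1.2 j + (r.1.1.1 : ℕ) * R.v j + Λ * q * Z r j)
            = Λ * ∑ j, R.n a j * r.1.1.2 j + (r.1.1.1 : ℕ) * ∑ j, R.n a j * R.v j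
              + Λ * q * ∑ j, R.n a j * Z r j := by
          rw [mul_sum, mul_sum, mul_sum, ← sum_add_distrib, ← sum_add_distrib]
          refine sum_congr rfl fun j _ => by ring
        rw [h3, R.hv a]
        generalize (((r.1.1.1 : ℕ) / lam a : ℕ) : ℤ) = X at h1 ⊢
        generalize (((r.1.1.1 : ℕ) % lam a : ℕ) : ℤ) = Y at h1 ⊢
        rw [h1]
        linear_combination X * h2
      have hsum : ∑ j, (R.n a j : ℝ) * t j =
          -(k * ((∑ j, R.n a j * (Λ * r.1.1.2 j + (r.1.1.1 : ℕ) * R.v j + Λ * q * Z r j) : ℤ) : ℝ)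
            / G) + lamb * R.s a + k ^ 2 * (Anum a / Qa a) := by
        rw [← hv, ← hy]
        simp only [ht]
        rw [Int.cast_sum, mul_sum, mul_sum, mul_sum, sum_div, ← sum_neg_distrib,
          ← sum_add_distrib, ← sum_add_distrib]
        refine sum_congr rfl fun j _ => ?_
        push_cast; ring
      rw [hC, hsum]
      have hQa' : (Qa a : ℝ) ≠ 0 := by have := hQa0 a; positivity
      have hGr : (G : ℝ) = Λ * (q * (p a * Qa a)) := by rw [hG, hQeq a]; push_cast; ring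
      have hq' : (q : ℝ) ≠ 0 := by positivity
      have hΛ' : (Λ : ℝ) ≠ 0 := by positivity
      have hp' : (p a : ℝ) ≠ 0 := by have := hp0 a; positivity
      have h5 : (k : ℝ) * ((Λ * q * ((m : ℕ) * p a) : ℤ) : ℝ) / G = k * (m : ℕ) / Qa a := by
        rw [hGr]; push_cast; field_simp
      rw [Int.cast_add, mul_add, add_div, h5]
      ring
    simp only [hphase, e_add]
    have hsum2 := huG2 a k
    rw [← Fin.sum_univ_eq_sum_range (fun m => uG a m * e (-(k * m / Qa a))) (Qa a)] at hsum2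
    have hfac : ∑ m : Fin (Qa a), ((√(R.s a * (Fintype.card β : ℕ) / G) : ℝ) : ℂ) *
        (R.c a / ‖R.c a‖ * uG a m) *
        (e (∑ j, (R.n a j : ℝ) * t j - Anum a * k ^ 2 / Qa a) * e (-(k * (m : ℕ) / Qa a)))
        = ((√(R.s a * (Fintype.card β : ℕ) / G) : ℝ) : ℂ) * (R.c a / ‖R.c a‖) *
          e (∑ j, (R.n a j : ℝ) * t j - Anum a * k ^ 2 / Qa a) *
          ∑ m : Fin (Qa a), uG a m * e (-(k * (m : ℕ) / Qa a)) := by
      rw [mul_sum]
      refine sum_congr rfl fun m _ => by ring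
    rw [hfac, hsum2]
    have he : e (∑ j, (R.n a j : ℝ) * t j - Anum a * k ^ 2 / Qa a) * e (Anum a * k ^ 2 / Qa a)
        = e (∑ j, (R.n a j : ℝ) * t j) := by
      rw [← e_add]; congr 1; ring
    have hsq : √(R.s a * (Fintype.card β : ℕ) / G) * √(Qa a)
        = κ * √(μ * A a / p a) * ‖R.c a‖ := by
      rw [← Real.sqrt_mul (by positivity), hβcard, hamp a]
      simp only [hw]
      rw [Real.sqrt_mul (by positivity), ← mul_pow, Real.sqrt_sq (by positivity)]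
      ring
    have hcn : ((‖R.c a‖ : ℝ) : ℂ) ≠ 0 := by exact_mod_cast (hc0 a).ne'
    have hsq' : ((√(R.s a * (Fintype.card β : ℕ) / G) : ℝ) : ℂ) * ((√(Qa a) : ℝ) : ℂ)
        = ((κ * √(μ * A a / p a) : ℝ) : ℂ) * ((‖R.c a‖ : ℝ) : ℂ) := by
      exact_mod_cast hsq
    rw [← he]
    calc _ = (((√(R.s a * (Fintype.card β : ℕ) / G) : ℝ) : ℂ) * ((√(Qa a) : ℝ) : ℂ)) *
          (R.c a / ‖R.c a‖) * (e (∑ j, (R.n a j : ℝ) * t j - Anum a * k ^ 2 / Qa a) *
          e (Anum a * k ^ 2 / Qa a)) := by ring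
      _ = _ := by rw [hsq']; field_simp

end Vale.Agent.P130
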