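import Vale.Agent.P130.VRes
import Vale.Agent.P130.VPack
import Vale.Agent.P130.VFlat
import Vale.Agent.P130.FlatAux

/-! Existence of cutting and stacking parameters with flat polynomials. -/

namespace Vale.Agent.P130

open Finset Vale.Agent.P110

theorem flat (δ : ℝ) (hδ : 0 < δ) : ∃ N : ℕ, ∀ p₀ : ℕ, ∃ p : ℕ, p₀ ≤ p ∧ 0 < p ∧
    ∃ ξ : ℕ → ℕ, (∀ j, ξ j ≤ N) ∧ ∀ (h H : ℕ) (S : Finset ℤ), h + N + 1 ≤ H →
      (∀ a ∈ S, 0 ≤ a ∧ a < h) →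
      ∫ θ in (0 : ℝ)..1, ‖e θ - 1‖ ^ 2 * ‖∑ a ∈ S, e (a * θ)‖ ^ 2 * (‖Pf p H ξ θ‖ - 1) ^ 2
        ≤ δ * (S.card : ℝ) := by
  obtain ⟨γ, hγ⟩ : ∃ γ : ℝ, γ = min (δ / 4000) 1 := ⟨_, rfl⟩
  have hγ0 : 0 < γ := hγ ▸ lt_min (by positivity) one_pos
  have hγ1 : γ ≤ 1 := hγ ▸ min_le_right _ _
  have hγ2 : γ ≤ δ / 4000 := hγ ▸ min_le_left _ _
  obtain ⟨N, hN, hNp⟩ := Nat.exists_infinite_primes ⌈4 / γ⌉₊
  have : Fact N.Prime := ⟨hNp⟩
  have hN0 : 0 < N := hNp.pos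
  have hNr : (0 : ℝ) < N := by exact_mod_cast hN0
  have hN4 : 4 ≤ γ * N := by
    have h1 : 4 / γ ≤ N := (Nat.le_ceil _).trans (by exact_mod_cast hN)
    rwa [div_le_iff₀' hγ0] at h1
  have hε : 2 / (N : ℝ) ^ 2 ≤ γ ^ 2 / 8 := by
    rw [div_le_div_iff₀ (by positivity) (by norm_num), ← mul_pow]
    nlinarith
  obtain ⟨R⟩ := exists_vres N (γ ^ 2 / 8) hε
  refine ⟨N, fun p₀ => ?_⟩
  obtain ⟨p, hp0, hp, b, Ψ, hK, hc, hper, hint, hΨ⟩ :=
    vflat (N := N) (X := Option (ZMod N)) (ε := 2 * (γ ^ 2 / 8)) (by positivity)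
      (fun η hη => exists_vpre hN0 (by positivity) (by nlinarith) R η hη) p₀
  obtain ⟨ξ, hξ, hflat⟩ := flat_aux hN0 (X := Option (ZMod N)) (by simp) hp b Ψ hγ0 hγ1 hK hc hper
    (by linarith) hΨ
  refine ⟨p, hp0, hp, ξ, hξ, fun h H S hH hS => (hflat h H S hH hS).trans ?_⟩
  refine mul_le_mul_of_nonneg_right ?_ (by positivity)
  have h1 : 1 / (N : ℝ) ≤ γ := by
    rw [div_le_iff₀ hNr]; linarith
  linarith

theorem exists_data : Nonempty Data := by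
  choose N hN using fun m : ℕ => flat ((1 / 2 ^ m) ^ 2) (by positivity)
  choose p hp0 hp ξ hξ hflat using fun m : ℕ => hN m (2 ^ (m + 3) * (N (m + 1) + 1))
  obtain ⟨h, h0, hs⟩ : ∃ h : ℕ → ℕ, h 0 = 4 * (N 0 + 1) ∧
      ∀ m, h (m + 1) = p m * (h m + N m + 1) :=
    ⟨fun m => Nat.rec (4 * (N 0 + 1)) (fun k hk => p k * (hk + N k + 1)) m, rfl, fun m => rfl⟩
  have hb : ∀ m, 2 ^ (m + 2) * (N m + 1) ≤ h m := by
    intro m
    cases m with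
    | zero => exact h0.ge
    | succ m =>
      rw [hs]
      exact (hp0 m).trans (Nat.le_mul_of_pos_right _ (by omega))
  refine ⟨{ h := h, p := p, H := fun m => h m + N m + 1, ξ := ξ, hp := hp, hh := fun m => ?_,
            hsucc := hs, hξ := fun m j => ?_, hH := fun m => ?_,
            flat := fun m S hS => hflat m (h m) _ S le_rfl hS }⟩
  · refine le_trans ?_ (hb m)
    exact (Nat.pow_le_pow_right (by norm_num) (by omega)).trans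
      (Nat.le_mul_of_pos_right _ (by omega))
  · have := hξ m j
    omega
  · have h1 : (2 : ℝ) ^ (m + 2) * (N m + 1) ≤ ((h m : ℕ) : ℝ) := by exact_mod_cast hb m
    have h2 : (N m + 1 : ℝ) ≤ 1 / 2 ^ (m + 2) * ((h m : ℕ) : ℝ) := by
      rw [one_div, ← div_eq_inv_mul, le_div_iff₀' (by positivity)]
      exact h1
    have h3 : (0 : ℝ) ≤ 1 / 2 ^ (m + 2) * (N m + 1) := by positivity
    push_cast
    nlinarith

end Vale.Agent.P130
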