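import Vale.Agent.P110.Basic

/-! Finite data for the rank-one transformation with simple Lebesgue spectrum. -/

namespace Vale.Agent.P130

open Finset Vale.Agent.P110

/-- The convex hull of the vectors `e_x - 1/N` and `1 - 1/N`, given by its inequalities. -/
def InK (N : ℕ) {X : Type} [Fintype X] (b : X → ℝ) : Prop :=
  -(1 / N) ≤ ∑ x, b x ∧ ∀ y, (∑ x, b x + 1 / N) / N ≤ b y + 1 / N

/-- A vector valued trigonometric polynomial on a torus with values in the convex set `InK`,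
almost full mean square, pairwise non-parallel frequencies, each feeding one coordinate. -/
structure VRes (N : ℕ) (X : Type) [Fintype X] [DecidableEq X] (ε : ℝ) where
  α : Type
  δ : Type
  [fα : Fintype α]
  [dα : DecidableEq α]
  [fδ : Fintype δ]
  [dδ : DecidableEq δ]
  n : α → δ → ℤ
  c : α → ℂ
  lab : α → X
  v : δ → ℤ
  s : α → ℕ
  z : α → δ → ℤ
  y : α → δ → ℤ
  hc : ∀ a, c a ≠ 0
  hs : ∀ a, 0 < s a
  hv : ∀ a, ∑ i, n a i * v i = s a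
  hz : ∀ a, ∑ i, n a i * z a i = 1
  hy0 : ∀ a, ∑ i, n a i * y a i = 0
  hy1 : ∀ a b, a ≠ b → ∑ i, n b i * y a i ≠ 0
  mass : 1 - ε ≤ 2 * ∑ a, ‖c a‖ ^ 2
  bound : ∀ t : δ → ℝ,
    InK N fun x => ∑ a with lab a = x, 2 * (c a * e (∑ i, n a i * t i)).re

attribute [instance] VRes.fα VRes.dα VRes.fδ VRes.dδ

/-- Labelled branches on the grid `ℤ / G`, grouped in bundles. -/
structure VPre (N : ℕ) (X : Type) [Fintype X] [DecidableEq X] (ε η : ℝ) where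
  ι : Type
  β : Type
  [fι : Fintype ι]
  [dι : DecidableEq ι]
  [fβ : Fintype β]
  [dβ : DecidableEq β]
  [neβ : Nonempty β]
  bun : ι → β
  lab : ι → X
  G : ℕ
  C : ι → ℤ
  s : ι → ℕ
  u : ι → ℂ
  hG : 0 < G
  hs : ∀ i, 0 < s i
  hu : ∀ i, ‖u i‖ = 1
  inj1 : ∀ i j (r r' : ℕ), r < s i → r' < s j → (G : ℤ) ∣ (C i + r) - (C j + r') → i = j ∧ r = r'
  inj2 : ∀ i j (r r' : ℕ), r < s i → r' < s j → ¬ (G : ℤ) ∣ (C i + r) + (C j + r') + 1
  cover : (1 - ε) * G ≤ 2 * ∑ i, (s i : ℝ)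
  bound : ∀ (b : β) (k : ℤ) (lam : ℝ), ∃ b' : X → ℝ, InK N b' ∧
    ∑ x, |∑ i with bun i = b ∧ lab i = x, 2 * ((√(s i * Fintype.card β / G) : ℝ) * u i *
      e (-(k * C i / G) + s i * lam)).re - b' x| ≤ η

attribute [instance] VPre.fι VPre.dι VPre.fβ VPre.dβ VPre.neβ

/-- The normalised trigonometric polynomial of a real sequence. -/
noncomputable def Bf (p : ℕ) (b : ℕ → ℝ) (τ : ℝ) : ℂ :=
  ((√p)⁻¹ : ℝ) * ∑ j ∈ range p, (b j : ℂ) * e (j * τ)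

/-- The normalised polynomial of the positions `H * j + ξ j`. -/
noncomputable def Pf (p H : ℕ) (ξ : ℕ → ℕ) (θ : ℝ) : ℂ :=
  ((√p)⁻¹ : ℝ) * ∑ j ∈ range p, e (((H * j + ξ j : ℕ) : ℝ) * θ)

/-- Cutting and stacking parameters with flat polynomials. -/
structure Data where
  h : ℕ → ℕ
  p : ℕ → ℕ
  H : ℕ → ℕ
  ξ : ℕ → ℕ → ℕ
  hp : ∀ m, 0 < p m
  hh : ∀ m, 2 ^ m ≤ h m
  hsucc : ∀ m, h (m + 1) = p m * H m
  hξ : ∀ m j, ξ m j + h m ≤ H m
  hH : ∀ m, (1 - 1 / 2 ^ (m + 2)) * (H m : ℝ) ≤ h m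
  flat : ∀ (m : ℕ) (S : Finset ℤ), (∀ a ∈ S, 0 ≤ a ∧ a < h m) →
    ∫ θ in (0 : ℝ)..1, ‖e θ - 1‖ ^ 2 * ‖∑ a ∈ S, e (a * θ)‖ ^ 2 *
      (‖Pf (p m) (H m) (ξ m) θ‖ - 1) ^ 2 ≤ (1 / 2 ^ m : ℝ) ^ 2 * (S.card : ℝ)

namespace Data

variable (D : Data)

/-- Positions of the base of tower `n` inside tower `m`. -/
def A (n : ℕ) : ℕ → Finset ℤ
  | 0 => if n = 0 then {0} else ∅
  | m + 1 => if n = m + 1 then {0} else
      (range (D.p m)).biUnion fun j => (A n m).image fun a => a + (D.H m * j + D.ξ m j : ℕ)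

/-- Correlation counts. -/
def c (n n' : ℕ) (l : ℤ) (m : ℕ) : ℕ := ((D.A n m).filter fun a => a + l ∈ D.A n' m).card

end Data

/-- The symbolic space. -/
abbrev Sp : Type := ℤ × ℕ → Bool

/-- The shift by `k`. -/
def sh (k : ℤ) (x : Sp) : Sp := fun q => x (q.1 + k, q.2)

/-- The generating sets. -/
def Bs (k : ℤ) (n : ℕ) : Set Sp := {x | x (k, n) = true}

end Vale.Agent.P130
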