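import Vale.Agent.P130.Tower

/-! The invariant measure and its properties. -/

namespace Vale.Agent.P130

open Finset Filter MeasureTheory Topology

theorem ms_continuous_sh (k : ℤ) : Continuous (sh k) :=
  continuous_pi fun _ => continuous_apply _

theorem ms_sh_sh (k l : ℤ) (x : Sp) : sh k (sh l x) = sh (k + l) x := by
  funext q; simp [sh, add_assoc]

theorem ms_sh_zero (x : Sp) : sh 0 x = x := by
  funext q; simp [sh]

theorem ms_clopen_Bs (k : ℤ) (n : ℕ) : IsClopen (Bs k n) :=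
  (isClopen_discrete ({true} : Set Bool)).preimage (continuous_apply (k, n))

theorem ms_meas {S : Set Sp} (h : IsClopen S) : MeasurableSet S := h.isOpen.measurableSet

theorem ms_clopen_cyl {S : Set Sp} (h : S ∈ measurableCylinders fun _ : ℤ × ℕ => Bool) :
    IsClopen S := by
  obtain ⟨s, T, -, rfl⟩ := (mem_measurableCylinders S).1 h
  exact (isClopen_discrete T).preimage (continuous_pi fun _ => continuous_apply _)

/-- The word describing tower `m`. -/
def msx (D : Data) (m : ℕ) : Sp := fun q => decide (q.1 ∈ D.A q.2 m)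

/-- The empirical measure on tower `m`. -/
noncomputable def msnu (D : Data) (m : ℕ) : Measure Sp :=
  (D.h m : ENNReal)⁻¹ • ∑ i ∈ range (D.h m), Measure.dirac (sh i (msx D m))

open Classical in
theorem msnu_apply (D : Data) (m : ℕ) {S : Set Sp} (hS : MeasurableSet S) :
    msnu D m S = (D.h m : ENNReal)⁻¹ *
      (((range (D.h m)).filter fun i : ℕ => sh i (msx D m) ∈ S).card : ℕ) := by
  rw [msnu, Measure.smul_apply, Measure.finsetSum_apply, smul_eq_mul, card_filter]
  congr 1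
  push_cast
  refine sum_congr rfl fun i _ => ?_
  rw [Measure.dirac_apply' _ hS, Set.indicator_apply]
  rfl

theorem msnu_prob (D : Data) (m : ℕ) : IsProbabilityMeasure (msnu D m) := by
  constructor
  rw [msnu_apply D m MeasurableSet.univ]
  simp only [Set.mem_univ, filter_true, card_range]
  exact ENNReal.inv_mul_cancel (by exact_mod_cast (D.h_pos m).ne') (by simp)

open Classical in
theorem msnu_real (D : Data) (m : ℕ) {S : Set Sp} (hS : MeasurableSet S) :
    (msnu D m).real S =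
      (((range (D.h m)).filter fun i : ℕ => sh i (msx D m) ∈ S).card : ℝ) / D.h m := by
  rw [Measure.real, msnu_apply D m hS, ENNReal.toReal_mul, ENNReal.toReal_inv]
  simp [div_eq_inv_mul]

theorem ms_limit (D : Data) : ∃ (μ : Measure Sp) (_ : IsProbabilityMeasure μ)
    (𝒰 : Ultrafilter ℕ), (𝒰 : Filter ℕ) ≤ atTop ∧ ∀ S : Set Sp, IsClopen S →
      Tendsto (fun m => (msnu D m).real S) 𝒰 (𝓝 (μ.real S)) := by
  let ν : ℕ → ProbabilityMeasure Sp := fun m => ⟨msnu D m, msnu_prob D m⟩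
  let 𝒰 : Ultrafilter ℕ := Ultrafilter.of atTop
  obtain ⟨μ, -, hμ⟩ := isCompact_univ.ultrafilter_le_nhds (𝒰.map ν) (by simp)
  refine ⟨μ, inferInstance, 𝒰, Ultrafilter.of_le _, fun S hS => ?_⟩
  have hμ' : Tendsto ν (𝒰 : Filter ℕ) (𝓝 μ) := hμ
  have h := ProbabilityMeasure.tendsto_measure_of_isClopen_of_tendsto hμ' hS
  exact (NNReal.continuous_coe.tendsto _).comp h

/-- The properties of the limit measure used below. -/
structure MsGood (D : Data) (μ : Measure Sp) : Prop where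
  inv : ∀ k : ℤ, MeasurePreserving (sh k) μ μ
  rel : ∀ᵐ x ∂μ, ∀ (n n' : ℕ) (l i : ℤ), n' ≤ n → 0 ≤ i → i < D.h n → x (l, n) = true →
    (x (l + i, n') = true ↔ i ∈ D.A n' n)
  low : ∀ n, 1 - 1 / 2 ^ (n + 1) ≤ D.h n * μ.real (Bs 0 n)
  upp : ∀ n, D.h n * μ.real (Bs 0 n) ≤ 1

section Limit

variable {D : Data} {μ : Measure Sp} [IsProbabilityMeasure μ] {𝒰 : Ultrafilter ℕ}

theorem ms_inv (h𝒰 : (𝒰 : Filter ℕ) ≤ atTop) (h : ∀ S : Set Sp, IsClopen S →
    Tendsto (fun m => (msnu D m).real S) 𝒰 (𝓝 (μ.real S))) (k : ℤ) :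
    MeasurePreserving (sh k) μ μ := by
  classical
  have h1 : MeasurePreserving (sh 1) μ μ := by
    refine ⟨(ms_continuous_sh 1).measurable, ?_⟩
    have : IsProbabilityMeasure (μ.map (sh 1)) :=
      Measure.isProbabilityMeasure_map (ms_continuous_sh 1).measurable.aemeasurable
    refine ext_of_generate_finite _ generateFrom_measurableCylinders.symm
      isPiSystem_measurableCylinders (fun S hS => ?_) (by simp)
    have hc := ms_clopen_cyl hS
    have hc' := hc.preimage (ms_continuous_sh 1)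
    rw [Measure.map_apply (ms_continuous_sh 1).measurable (ms_meas hc),
      ← ENNReal.toReal_eq_toReal_iff' (measure_ne_top _ _) (measure_ne_top _ _), ← sub_eq_zero]
    refine tendsto_nhds_unique ((h _ hc').sub (h _ hc)) ?_
    have h0 : Tendsto (fun m => (1 : ℝ) / D.h m) atTop (𝓝 0) :=
      tendsto_const_nhds.div_atTop (tendsto_natCast_atTop_atTop.comp D.tendsto_h)
    refine squeeze_zero_norm (fun m => ?_) (h0.mono_left h𝒰)
    rw [msnu_real D m (ms_meas hc'), msnu_real D m (ms_meas hc), ← sub_div, norm_div,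
      Real.norm_natCast]
    gcongr
    rw [card_filter, card_filter]
    push_cast
    rw [← sum_sub_distrib]
    have e : ∀ i : ℕ, (sh i (msx D m) ∈ sh 1 ⁻¹' S) = (sh ((i + 1 : ℕ) : ℤ) (msx D m) ∈ S) := by
      intro i
      rw [Set.mem_preimage, ms_sh_sh, add_comm]; rfl
    simp only [e]
    rw [sum_range_sub fun i : ℕ => if sh i (msx D m) ∈ S then (1 : ℝ) else 0]
    split_ifs <;> simp
  have h2 : MeasurePreserving (sh (-1)) μ μ := by
    refine ⟨(ms_continuous_sh _).measurable, ?_⟩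
    conv_lhs => rw [← h1.map_eq]
    rw [Measure.map_map (ms_continuous_sh _).measurable (ms_continuous_sh _).measurable]
    have : sh (-1) ∘ sh 1 = id := funext fun x => by
      rw [Function.comp_apply, ms_sh_sh, neg_add_cancel, ms_sh_zero, id]
    rw [this, Measure.map_id]
  induction k using Int.induction_on with
  | zero =>
    rw [show sh 0 = id from funext ms_sh_zero]
    exact MeasurePreserving.id μ
  | succ k ih =>
    rw [show sh ((k : ℤ) + 1) = sh k ∘ sh 1 from funext fun x => (ms_sh_sh _ _ x).symm]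
    exact ih.comp h1
  | pred k ih =>
    rw [show sh (-(k : ℤ) - 1) = sh (-k) ∘ sh (-1) from funext fun x => (ms_sh_sh _ _ x).symm]
    exact ih.comp h2

theorem ms_corr (D : Data) (n n' : ℕ) (l : ℤ) (m : ℕ) :
    (msnu D m).real (Bs 0 n ∩ Bs l n') = (D.c n n' l m : ℝ) / D.h m := by
  rw [msnu_real D m (ms_meas ((ms_clopen_Bs _ _).inter (ms_clopen_Bs _ _))), Data.c]
  congr 2
  refine card_bij (fun i _ => (i : ℤ)) (fun i hi => ?_) (fun i _ j _ e => by exact_mod_cast e)
    fun a ha => ?_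
  · simp only [mem_filter, Set.mem_inter_iff, Bs, Set.mem_ofPred_eq, sh, msx, decide_eq_true_eq,
      zero_add] at hi ⊢
    exact ⟨hi.2.1, by rw [add_comm]; exact hi.2.2⟩
  · obtain ⟨h1, h2⟩ := mem_filter.1 ha
    have h3 := D.A_nonneg h1
    have h4 := D.A_lt h1
    refine ⟨a.toNat, ?_, Int.toNat_of_nonneg h3⟩
    simp only [mem_filter, Set.mem_inter_iff, Bs, Set.mem_ofPred_eq, sh, msx, decide_eq_true_eq,
      zero_add, Int.toNat_of_nonneg h3, mem_range]
    exact ⟨by omega, h1, by rw [add_comm]; exact h2⟩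

theorem ms_good (h𝒰 : (𝒰 : Filter ℕ) ≤ atTop) (h : ∀ S : Set Sp, IsClopen S →
    Tendsto (fun m => (msnu D m).real S) 𝒰 (𝓝 (μ.real S))) : MsGood D μ := by
  have hr : ∀ n, Tendsto (fun m => D.h n * (((D.A n m).card : ℝ) / D.h m)) 𝒰
      (𝓝 (D.h n * μ.real (Bs 0 n))) := by
    intro n
    have := h _ ((ms_clopen_Bs 0 n).inter (ms_clopen_Bs 0 n))
    simp only [ms_corr, D.c_self] at this
    rw [Set.inter_self] at this
    exact this.const_mul _
  refine ⟨ms_inv h𝒰 h, ?_, fun n => ge_of_tendsto (hr n)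
    (((eventually_ge_atTop n).mono fun m hm => D.ratio_lower hm).filter_mono h𝒰),
    fun n => le_of_tendsto (hr n)
      (((eventually_ge_atTop n).mono fun m hm => D.ratio_upper hm).filter_mono h𝒰)⟩
  simp only [ae_all_iff]
  intro n n' l i h1 h2 h3
  have hc : IsClopen {x : Sp | ¬(x (l, n) = true → (x (l + i, n') = true ↔ i ∈ D.A n' n))} :=
    (isClopen_discrete {b : Bool × Bool | ¬(b.1 = true → (b.2 = true ↔ i ∈ D.A n' n))}).preimage
      (f := fun x : Sp => (x (l, n), x (l + i, n'))) (by fun_prop)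
  have e : ∀ m, (msnu D m).real
      {x : Sp | ¬(x (l, n) = true → (x (l + i, n') = true ↔ i ∈ D.A n' n))} = 0 := by
    intro m
    rw [msnu_real D m (ms_meas hc), div_eq_zero_iff, Nat.cast_eq_zero, card_eq_zero,
      @filter_eq_empty_iff _ _ (_)]
    refine Or.inl fun j _ => ?_
    simp only [Set.mem_ofPred_eq, not_not, sh, msx, decide_eq_true_eq]
    intro hj
    rw [add_right_comm]
    exact D.mem_A_concat h1 hj h2 h3
  have := h _ hc
  simp only [e] at this
  have h0 := tendsto_nhds_unique this tendsto_const_nhds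
  rw [measureReal_eq_zero_iff] at h0
  simpa only [ae_all_iff] using (show ∀ᵐ x ∂μ, x (l, n) = true →
    (x (l + i, n') = true ↔ i ∈ D.A n' n) from h0)

end Limit

namespace MsGood

variable {D : Data} {μ : Measure Sp} [IsProbabilityMeasure μ]

/-- A union of levels of tower `n`. -/
def lev (n : ℕ) (J : Finset ℤ) : Set Sp := ⋃ i ∈ J, Bs (-i) n

theorem meas_lev (n : ℕ) (J : Finset ℤ) : MeasurableSet (lev n J) :=
  J.measurableSet_biUnion fun _ _ => ms_meas (ms_clopen_Bs _ _)

omit [IsProbabilityMeasure μ] in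
theorem real_Bs (h : MsGood D μ) (k : ℤ) (n : ℕ) : μ.real (Bs k n) = μ.real (Bs 0 n) := by
  rw [← (h.inv k).measureReal_preimage (ms_meas (ms_clopen_Bs 0 n)).nullMeasurableSet]
  congr 1
  ext x
  simp [Bs, sh]

omit [IsProbabilityMeasure μ] in
theorem integral_lev (h : MsGood D μ) {E : Type*} [NormedAddCommGroup E] [NormedSpace ℝ E]
    {f : Sp → E} (hf : Integrable f μ) (n : ℕ) {J : Finset ℤ}
    (hJ : ∀ i ∈ J, 0 ≤ i ∧ i < D.h n) :
    ∫ x in lev n J, f x ∂μ = ∑ i ∈ J, ∫ x in Bs (-i) n, f x ∂μ := by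
  have e : ∀ i, ∫ x in Bs (-i) n, f x ∂μ = ∫ x, (Bs (-i) n).indicator f x ∂μ := fun i =>
    (integral_indicator (ms_meas (ms_clopen_Bs _ _))).symm
  simp only [e]
  rw [← integral_indicator (meas_lev n J),
    ← integral_finsetSum _ fun i _ => hf.indicator (ms_meas (ms_clopen_Bs _ _))]
  refine integral_congr_ae ?_
  filter_upwards [h.rel] with x hx
  have key : ∀ i ∈ J, ∀ j ∈ J, i < j → x ∈ Bs (-i) n → x ∉ Bs (-j) n := by
    intro i hi j hj hij h1 h2
    have := (hx n n (-j) (j - i) le_rfl (by omega) (by have := hJ i hi; have := hJ j hj; omega)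
      h2).1 (by rw [show -j + (j - i) = -i by ring]; exact h1)
    rw [D.A_self, mem_singleton] at this
    omega
  by_cases hl : x ∈ lev n J
  · obtain ⟨i, hi, hxi⟩ := Set.mem_iUnion₂.1 hl
    rw [Set.indicator_of_mem hl, sum_eq_single_of_mem i hi, Set.indicator_of_mem hxi]
    intro j hj hne
    refine Set.indicator_of_notMem (fun hxj => ?_) _
    rcases lt_or_gt_of_ne hne with k | k
    · exact key j hj i hi k hxj hxi
    · exact key i hi j hj k hxi hxj
  · rw [Set.indicator_of_notMem hl, sum_eq_zero]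
    intro j hj
    exact Set.indicator_of_notMem (fun hxj => hl (Set.mem_iUnion₂.2 ⟨j, hj, hxj⟩)) _

theorem real_lev (h : MsGood D μ) (n : ℕ) {J : Finset ℤ} (hJ : ∀ i ∈ J, 0 ≤ i ∧ i < D.h n) :
    μ.real (lev n J) = J.card * μ.real (Bs 0 n) := by
  have := h.integral_lev (integrable_const (1 : ℝ)) n hJ
  simpa [h.real_Bs] using this

omit [IsProbabilityMeasure μ] in
theorem rho_le (h : MsGood D μ) (n : ℕ) : μ.real (Bs 0 n) ≤ 1 / 2 ^ n := by
  rw [le_div_iff₀ (by positivity), mul_comm]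
  refine le_trans (mul_le_mul_of_nonneg_right ?_ measureReal_nonneg) (h.upp n)
  exact_mod_cast D.hh n

theorem real_compl (h : MsGood D μ) (n K : ℕ) :
    μ.real (lev n (Ico (K : ℤ) (D.h n - K)))ᶜ ≤ (2 * K + 1) * (1 / 2) ^ n := by
  rw [measureReal_compl (meas_lev _ _), probReal_univ, h.real_lev n fun i hi => by
    have := mem_Ico.1 hi; omega]
  have h1 : (D.h n : ℝ) - 2 * K ≤ ((Ico (K : ℤ) (D.h n - K)).card : ℝ) := by
    rw [Int.card_Ico]
    have : (D.h n : ℤ) - 2 * K ≤ (((D.h n : ℤ) - K - K).toNat : ℕ) := by omega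
    exact_mod_cast this
  have h2 := mul_le_mul_of_nonneg_right h1 (measureReal_nonneg (μ := μ) (s := Bs 0 n))
  have h3 := h.low n
  have h4 := mul_le_mul_of_nonneg_left (h.rho_le n) (show (0 : ℝ) ≤ 2 * K by positivity)
  have h5 : (1 : ℝ) / 2 ^ (n + 1) ≤ 1 / 2 ^ n := by
    gcongr
    · norm_num
    · omega
  rw [one_div_pow]
  nlinarith

theorem noAtoms (h : MsGood D μ) : NoAtoms μ := by
  refine ⟨fun x => ?_⟩
  rw [← measureReal_eq_zero_iff]
  refine le_antisymm (ge_of_tendsto' (tendsto_pow_atTop_nhds_zero_of_lt_one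
    (show (0 : ℝ) ≤ 1 / 2 by norm_num) (by norm_num)) fun n => ?_) measureReal_nonneg
  by_cases hl : x ∈ lev n (Ico ((0 : ℕ) : ℤ) (D.h n - (0 : ℕ)))
  · obtain ⟨i, -, hxi⟩ := Set.mem_iUnion₂.1 hl
    refine (measureReal_mono (Set.singleton_subset_iff.2 hxi)).trans ?_
    rw [h.real_Bs, one_div_pow]
    exact h.rho_le n
  · refine (measureReal_mono (Set.singleton_subset_iff.2 (Set.mem_compl hl))).trans ?_
    simpa using h.real_compl n 0

theorem total_cyl (h : MsGood D μ) {g : Sp → ℂ} (hg : Integrable g μ) (h0 : ∫ x, g x ∂μ = 0)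
    (h1 : ∀ k n, ∫ x in Bs (k + 1) n, g x ∂μ = ∫ x in Bs k n, g x ∂μ) {C : Set Sp}
    (hC : C ∈ measurableCylinders fun _ : ℤ × ℕ => Bool) : ∫ x in C, g x ∂μ = 0 := by
  classical
  have hCm := MeasurableSet.of_mem_measurableCylinders hC
  obtain ⟨s, T, -, rfl⟩ := (mem_measurableCylinders C).1 hC
  have h2 : ∀ k n, ∫ x in Bs k n, g x ∂μ = ∫ x in Bs 0 n, g x ∂μ := by
    intro k n
    induction k using Int.induction_on with
    | zero => rfl
    | succ k ih => rw [h1, ih]
    | pred k ih => rw [← h1, sub_add_cancel, ih]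
  obtain ⟨K, hK⟩ : ∃ K : ℕ, ∀ q ∈ s, q.1.natAbs ≤ K ∧ q.2 ≤ K :=
    ⟨s.sup fun q => q.1.natAbs + q.2, fun q hq => by
      have := le_sup (f := fun q : ℤ × ℕ => q.1.natAbs + q.2) hq
      omega⟩
  let Y : ℕ → Set Sp := fun n => lev n (Ico (K : ℤ) (D.h n - K))
  have hY : Tendsto (μ ∘ fun n => (Y n)ᶜ) atTop (𝓝 0) := by
    have t : Tendsto (fun n : ℕ => (2 * K + 1 : ℝ) * (1 / 2) ^ n) atTop (𝓝 0) := by
      simpa using (tendsto_pow_atTop_nhds_zero_of_lt_one
        (show (0 : ℝ) ≤ 1 / 2 by norm_num) (by norm_num)).const_mul (2 * K + 1 : ℝ)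
    have t' := squeeze_zero (fun n => measureReal_nonneg) (fun n => h.real_compl n K) t
    exact (ENNReal.tendsto_toReal_zero_iff fun n => measure_ne_top _ _).1 t'
  have hY' : Tendsto (μ ∘ fun n => cylinder s T \ Y n) atTop (𝓝 0) :=
    tendsto_of_tendsto_of_tendsto_of_le_of_le tendsto_const_nhds hY (fun _ => zero_le)
      fun n => measure_mono fun x hx => hx.2
  have t1 := (hg.tendsto_setIntegral_nhds_zero hY).norm
  have t2 := (hg.tendsto_setIntegral_nhds_zero hY').norm
  have t3 := t1.add t2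
  rw [norm_zero, add_zero] at t3
  rw [← norm_eq_zero]
  refine le_antisymm (ge_of_tendsto t3 ((eventually_ge_atTop K).mono fun n hn => ?_))
    (norm_nonneg _)
  have hI : ∀ i ∈ Ico (K : ℤ) (D.h n - K), 0 ≤ i ∧ i < D.h n := fun i hi => by
    have := mem_Ico.1 hi; omega
  let J := (Ico (K : ℤ) (D.h n - K)).filter fun i => sh i (msx D n) ∈ cylinder s T
  have e1 : ∫ x in cylinder s T ∩ Y n, g x ∂μ = ∫ x in lev n J, g x ∂μ := by
    refine setIntegral_congr_set (eventuallyEq_set.2 ?_)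
    filter_upwards [h.rel] with x hx
    have key : ∀ i ∈ Ico (K : ℤ) (D.h n - K), x ∈ Bs (-i) n →
        (x ∈ cylinder s T ↔ sh i (msx D n) ∈ cylinder s T) := by
      intro i hi hxi
      have : s.restrict x = s.restrict (sh i (msx D n)) := by
        funext q
        have k1 := hK q q.2
        have k2 := mem_Ico.1 hi
        have k3 := hx n q.1.2 (-i) (q.1.1 + i) (by omega) (by omega) (by omega) hxi
        rw [show -i + (q.1.1 + i) = q.1.1 by ring] at k3
        simp only [Finset.restrict, sh, msx]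
        rw [Bool.eq_iff_iff, decide_eq_true_eq]
        exact k3
      rw [mem_cylinder, mem_cylinder, this]
    constructor
    · rintro ⟨k1, k2⟩
      obtain ⟨i, hi, hxi⟩ := Set.mem_iUnion₂.1 k2
      exact Set.mem_iUnion₂.2 ⟨i, mem_filter.2 ⟨hi, (key i hi hxi).1 k1⟩, hxi⟩
    · intro k
      obtain ⟨i, hi, hxi⟩ := Set.mem_iUnion₂.1 k
      obtain ⟨k1, k2⟩ := mem_filter.1 hi
      exact ⟨(key i k1 hxi).2 k2, Set.mem_iUnion₂.2 ⟨i, k1, hxi⟩⟩
  have e2 := h.integral_lev hg n fun i (hi : i ∈ J) => hI i (mem_filter.1 hi).1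
  have e3 := h.integral_lev hg n hI
  simp only [h2, sum_const, nsmul_eq_mul] at e2 e3
  have e4 := integral_add_compl (meas_lev n (Ico (K : ℤ) (D.h n - K))) hg
  rw [h0, e3] at e4
  rw [← integral_inter_add_sdiff (t := Y n) (meas_lev _ _) hg.integrableOn, e1, e2]
  refine (norm_add_le _ _).trans (add_le_add_left ?_ _)
  rw [← neg_eq_of_add_eq_zero_right e4, norm_neg, norm_mul, norm_mul, Complex.norm_natCast,
    Complex.norm_natCast]
  gcongr
  exact filter_subset _ _

theorem total (h : MsGood D μ) {g : Sp → ℂ} (hg : Integrable g μ) (h0 : ∫ x, g x ∂μ = 0)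
    (h1 : ∀ k n, ∫ x in Bs (k + 1) n, g x ∂μ = ∫ x in Bs k n, g x ∂μ) : g =ᵐ[μ] 0 := by
  refine hg.ae_eq_zero_of_forall_setIntegral_eq_zero fun S hS _ => ?_
  induction S, hS using MeasurableSpace.induction_on_inter
    generateFrom_measurableCylinders.symm isPiSystem_measurableCylinders with
  | empty => simp
  | basic t ht => exact h.total_cyl hg h0 h1 ht
  | compl t htm ih => simpa [ih (measure_lt_top _ _), h0] using integral_add_compl htm hg
  | iUnion f hd hm ih =>
    simp [integral_iUnion hm hd hg.integrableOn, fun i => ih i (measure_lt_top _ _)]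

end MsGood

theorem exists_system (D : Data) : ∃ (μ : Measure Sp) (_ : IsProbabilityMeasure μ)
    (𝒰 : Ultrafilter ℕ), (𝒰 : Filter ℕ) ≤ atTop ∧ (∀ k : ℤ, MeasurePreserving (sh k) μ μ) ∧
    (∀ (n n' : ℕ) (l : ℤ), Tendsto (fun m => (D.c n n' l m : ℝ) / D.h m) 𝒰
      (𝓝 (μ.real (Bs 0 n ∩ Bs l n')))) ∧ NoAtoms μ ∧
    ∀ g : Sp → ℂ, Integrable g μ → ∫ x, g x ∂μ = 0 →
      (∀ k n, ∫ x in Bs (k + 1) n, g x ∂μ = ∫ x in Bs k n, g x ∂μ) → g =ᵐ[μ] 0 := by
  obtain ⟨μ, hμ, 𝒰, h𝒰, h⟩ := ms_limit D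
  have hg := ms_good h𝒰 h
  refine ⟨μ, hμ, 𝒰, h𝒰, hg.inv, fun n n' l => ?_, hg.noAtoms, fun g => hg.total⟩
  simpa only [ms_corr] using h _ ((ms_clopen_Bs 0 n).inter (ms_clopen_Bs l n'))

end Vale.Agent.P130
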