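import Vale.Agent.P130.Tower

/-! The spectral model on the circle. -/

namespace Vale.Agent.P130

open Finset Filter MeasureTheory Topology AddCircle Vale.Agent.P110
open scoped ComplexConjugate

/-- The circle. -/
abbrev PsT : Type := AddCircle (1 : ℝ)

/-- Haar measure on the circle. -/
noncomputable abbrev psm : Measure PsT := @haarAddCircle 1 ⟨one_pos⟩

/-- The characters of the circle. -/
noncomputable def psf (k : ℤ) (x : PsT) : ℂ := fourier k x

theorem psf_add (k l : ℤ) (x : PsT) : psf (k + l) x = psf k x * psf l x := fourier_add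

theorem psf_neg (k : ℤ) (x : PsT) : psf (-k) x = conj (psf k x) := fourier_neg

theorem psf_norm (k : ℤ) (x : PsT) : ‖psf k x‖ = 1 := Circle.norm_coe _

theorem psf_zero (x : PsT) : psf 0 x = 1 := fourier_zero

@[fun_prop] theorem psf_cont (k : ℤ) : Continuous (psf k) := (fourier k).continuous

theorem psf_coe (k : ℤ) (θ : ℝ) : psf k (θ : PsT) = e (k * θ) := by
  rw [psf, fourier_coe_apply, e]
  congr 1
  push_cast
  ring

theorem ps_vol : (volume : Measure PsT) = psm := by
  rw [volume_eq_smul_haarAddCircle]; simp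

theorem ps_int {f : PsT → ℂ} (hf : Continuous f) : Integrable f psm :=
  hf.integrable_of_hasCompactSupport (HasCompactSupport.of_compactSpace f)

theorem ps_orth (k : ℤ) : ∫ x, psf k x ∂psm = if k = 0 then 1 else 0 := by
  split_ifs with h
  · simp [h, psf_zero]
  · exact integral_eq_zero_of_add_right_eq_neg (μ := psm) (fourier_add_half_inv_index h one_pos)

theorem ps_ae_ne : ∀ᵐ x ∂psm, psf 1 x ≠ 1 := by
  have h : psm {0} = 0 := by
    rw [← ps_vol, ← Metric.closedBall_zero, volume_closedBall]; simp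
  filter_upwards [compl_mem_ae_iff.2 h] with x hx h1
  refine hx (injective_toCircle one_ne_zero (Subtype.ext ?_))
  rw [psf, fourier_one] at h1
  rw [h1, fourier_zero']

/-- An integrable function with vanishing Fourier coefficients vanishes. -/
theorem ps_unique {H : PsT → ℂ} (hH : Integrable H psm)
    (h : ∀ l : ℤ, ∫ x, H x * psf l x ∂psm = 0) : H =ᵐ[psm] 0 := by
  have hi : ∀ φ : C(PsT, ℂ), Integrable (fun x => H x * φ x) psm := fun φ =>
    hH.mul_bdd (c := ‖φ‖) φ.continuous.aestronglyMeasurable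
      (Eventually.of_forall fun x => φ.norm_coe_le_norm x)
  let L₀ : C(PsT, ℂ) →ₗ[ℂ] ℂ :=
    { toFun := fun φ => ∫ x, H x * φ x ∂psm
      map_add' := fun φ ψ => by
        rw [← integral_add (hi φ) (hi ψ)]
        simp [mul_add]
      map_smul' := fun c φ => by
        simp only [ContinuousMap.smul_apply, smul_eq_mul, RingHom.id_apply]
        rw [← integral_const_mul]
        congr 1 with x
        ring }
  let L : C(PsT, ℂ) →L[ℂ] ℂ := L₀.mkContinuous (∫ x, ‖H x‖ ∂psm) fun φ => by
    rw [← integral_mul_const]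
    refine norm_integral_le_of_norm_le (hH.norm.mul_const _) (Eventually.of_forall fun x => ?_)
    rw [norm_mul]
    exact mul_le_mul_of_nonneg_left (φ.norm_coe_le_norm x) (norm_nonneg _)
  have hL : L = 0 := by
    refine ContinuousLinearMap.ext_on (s := Set.range (@fourier 1)) ?_ ?_
    · exact Submodule.dense_iff_topologicalClosure_eq_top.2 span_fourier_closure_eq_top
    · rintro _ ⟨l, rfl⟩
      exact h l
  have hc : ∀ φ : C(PsT, ℂ), ∫ x, H x * φ x ∂psm = 0 := fun φ => by
    have : L φ = 0 := by rw [hL]; rfl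
    exact this
  refine ae_eq_zero_of_forall_setIntegral_isClosed_eq_zero hH fun s hs => ?_
  have hδ : ∀ n : ℕ, (0 : ℝ) < 1 / (n + 1) := fun n => by positivity
  have ht := thickenedIndicator_tendsto_indicator_closure hδ
    tendsto_one_div_add_atTop_nhds_zero_nat s
  rw [hs.closure_eq, tendsto_pi_nhds] at ht
  let φ : ℕ → C(PsT, ℂ) := fun n => ⟨fun x => ((thickenedIndicator (hδ n) s x : ℝ) : ℂ), by
    fun_prop⟩
  have := tendsto_integral_of_dominated_convergence (μ := psm) (F := fun n x => H x * φ n x)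
    (f := s.indicator H) (fun x => ‖H x‖) (fun n => (hi (φ n)).1) hH.norm
    (fun n => Eventually.of_forall fun x => ?_) (Eventually.of_forall fun x => ?_)
  · simp only [hc] at this
    rw [← integral_indicator hs.measurableSet]
    exact tendsto_nhds_unique this tendsto_const_nhds
  · rw [norm_mul]
    refine mul_le_of_le_one_right (norm_nonneg _) ?_
    simp only [φ, ContinuousMap.coe_mk, Complex.norm_real, Real.norm_eq_abs, NNReal.abs_eq]
    exact thickenedIndicator_le_one (hδ n) s x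
  · have := ((Complex.continuous_ofReal.comp NNReal.continuous_coe).tendsto _).comp (ht x)
    have e : s.indicator H x =
        H x * (Complex.ofReal ∘ NNReal.toReal) (s.indicator (fun _ => 1) x) := by
      by_cases hx : x ∈ s <;> simp [hx]
    rw [e]
    exact this.const_mul (H x)

theorem ps_norm_sq (f : Lp ℂ 2 psm) : ‖f‖ ^ 2 = ∫ x, ‖f x‖ ^ 2 ∂psm := by
  rw [← real_inner_self_eq_norm_sq, L2.inner_def]
  simp only [real_inner_self_eq_norm_sq]

namespace Data

variable (D : Data)

/-- The polynomial of the base of tower `n` in tower `m`. -/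
noncomputable def psF (n m : ℕ) (x : PsT) : ℂ := ∑ a ∈ D.A n m, psf a x

/-- The normalised spacer polynomial. -/
noncomputable def psP (m : ℕ) (x : PsT) : ℂ :=
  ((√(D.p m))⁻¹ : ℝ) * ∑ j ∈ range (D.p m), psf (D.H m * j + D.ξ m j : ℕ) x

open Classical in
/-- The conjugate phase of the spacer polynomial. -/
noncomputable def psU (m : ℕ) (x : PsT) : ℂ :=
  if D.psP m x = 0 then 1 else conj (D.psP m x) / ‖D.psP m x‖

/-- The accumulated phase. -/
noncomputable def psW (m : ℕ) (x : PsT) : ℂ := ∏ k ∈ range m, D.psU k x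

/-- The approximating functions. -/
noncomputable def psφ (n m : ℕ) (x : PsT) : ℂ :=
  ((√(D.A n m).card)⁻¹ : ℝ) * ((psf 1 x - 1) * D.psF n m x * D.psW m x)

theorem psF_cont (n m : ℕ) : Continuous (D.psF n m) := by unfold psF; fun_prop

theorem psP_cont (m : ℕ) : Continuous (D.psP m) := by unfold psP; fun_prop

theorem psU_meas (m : ℕ) : Measurable (D.psU m) := by
  have := D.psP_cont m
  refine Measurable.ite (measurableSet_eq_fun this.measurable measurable_const) measurable_const ?_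
  exact (Complex.continuous_conj.comp this).measurable.div
    (Complex.continuous_ofReal.comp this.norm).measurable

theorem psU_norm (m : ℕ) (x : PsT) : ‖D.psU m x‖ = 1 := by
  unfold psU
  split_ifs with h
  · simp
  · simp [h]

theorem psP_mul (m : ℕ) (x : PsT) : D.psP m x * D.psU m x = ‖D.psP m x‖ := by
  unfold psU
  split_ifs with h
  · simp [h]
  · have : (‖D.psP m x‖ : ℂ) ≠ 0 := by simpa using h
    rw [← mul_div_assoc, Complex.mul_conj', div_eq_iff this, sq]

theorem psW_meas (m : ℕ) : Measurable (D.psW m) :=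
  Finset.measurable_prod _ fun k _ => D.psU_meas k

theorem psW_norm (m : ℕ) (x : PsT) : ‖D.psW m x‖ = 1 := by
  simp [psW, psU_norm]

theorem psφ_memLp (n m : ℕ) : MemLp (D.psφ n m) 2 psm := by
  have hc : Continuous fun x => (psf 1 x - 1) * D.psF n m x := by
    have := D.psF_cont n m
    fun_prop
  refine MemLp.const_mul (MemLp.of_le
    (hc.memLp_of_hasCompactSupport (HasCompactSupport.of_compactSpace _))
    (hc.measurable.mul (D.psW_meas m)).aestronglyMeasurable
    (Eventually.of_forall fun x => ?_)) _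
  rw [Pi.mul_apply, norm_mul, psW_norm, mul_one]

theorem psF_succ {n m : ℕ} (h : n ≤ m) (x : PsT) :
    D.psF n (m + 1) x = (√(D.p m) : ℝ) * (D.psF n m x * D.psP m x) := by
  have h1 : ((√(D.p m) : ℝ) : ℂ) ≠ 0 := by
    have := D.hp m
    simp only [ne_eq, Complex.ofReal_eq_zero]
    positivity
  rw [psF, D.sum_A_succ h, psP, psF, Complex.ofReal_inv, mul_left_comm, mul_inv_cancel_left₀ h1,
    mul_sum]
  refine sum_congr rfl fun j _ => ?_
  rw [sum_mul]
  exact sum_congr rfl fun a _ => psf_add _ _ _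

theorem psφ_sub {n m : ℕ} (h : n ≤ m) (x : PsT) : ‖D.psφ n m x - D.psφ n (m + 1) x‖ ^ 2 =
    ((D.A n m).card : ℝ)⁻¹ *
      (‖psf 1 x - 1‖ ^ 2 * ‖D.psF n m x‖ ^ 2 * (‖D.psP m x‖ - 1) ^ 2) := by
  have h1 : ((√(D.p m) : ℝ) : ℂ) ≠ 0 := by
    have := D.hp m
    simp only [ne_eq, Complex.ofReal_eq_zero]
    positivity
  have e : D.psφ n m x - D.psφ n (m + 1) x = ((√(D.A n m).card)⁻¹ : ℝ) *
      ((psf 1 x - 1) * D.psF n m x * D.psW m x * ((1 - ‖D.psP m x‖ : ℝ) : ℂ)) := by
    rw [psφ, psφ, D.psF_succ h, D.card_A_succ h, psW, psW, prod_range_succ, Nat.cast_mul,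
      Real.sqrt_mul (Nat.cast_nonneg _), mul_inv, Complex.ofReal_mul, Complex.ofReal_sub,
      ← D.psP_mul, Complex.ofReal_inv (√(D.p m))]
    field_simp
    simp
  rw [e]
  simp only [norm_mul, psW_norm, Complex.norm_real, Real.norm_eq_abs, mul_pow, sq_abs, inv_pow,
    Real.sq_sqrt (Nat.cast_nonneg _)]
  ring

/-- The approximating functions in `L²`. -/
noncomputable def psΦ (n m : ℕ) : Lp ℂ 2 psm := (D.psφ_memLp n m).toLp _

theorem psΦ_coe (n m : ℕ) : D.psΦ n m =ᵐ[psm] D.psφ n m := (D.psφ_memLp n m).coeFn_toLp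

theorem psΦ_dist {n m : ℕ} (h : n ≤ m) : dist (D.psΦ n m) (D.psΦ n (m + 1)) ≤ 1 / 2 ^ m := by
  have hc : (0 : ℝ) < (D.A n m).card := by exact_mod_cast D.card_A_pos h
  rw [dist_eq_norm]
  refine (pow_le_pow_iff_left₀ (norm_nonneg _) (by positivity) two_ne_zero).1 ?_
  rw [ps_norm_sq, integral_congr_ae (g := fun x => ((D.A n m).card : ℝ)⁻¹ *
      (‖psf 1 x - 1‖ ^ 2 * ‖D.psF n m x‖ ^ 2 * (‖D.psP m x‖ - 1) ^ 2)), integral_const_mul,
    ← ps_vol, ← AddCircle.intervalIntegral_preimage 1 0, zero_add, inv_mul_le_iff₀ hc, mul_comm]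
  · have := D.flat m (D.A n m) fun a ha => ⟨D.A_nonneg ha, D.A_lt ha⟩
    simpa only [psF, psP, Pf, psf_coe, Int.cast_natCast, Int.cast_one, one_mul] using this
  · filter_upwards [Lp.coeFn_sub (D.psΦ n m) (D.psΦ n (m + 1)), D.psΦ_coe n m,
      D.psΦ_coe n (m + 1)] with x h1 h2 h3
    rw [h1, Pi.sub_apply, h2, h3, D.psφ_sub h]

theorem ps_limit (n : ℕ) : ∃ ψ : Lp ℂ 2 psm, Tendsto (D.psΦ n) atTop (𝓝 ψ) ∧
    dist (D.psΦ n n) ψ ≤ 2 / 2 ^ n := by
  have h : ∀ k, dist (D.psΦ n (k + n)) (D.psΦ n (k + 1 + n)) ≤ 2 / 2 ^ n / 2 / 2 ^ k := by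
    intro k
    rw [show k + 1 + n = k + n + 1 by ring]
    refine (D.psΦ_dist (by omega)).trans (le_of_eq ?_)
    rw [pow_add]
    field_simp
  obtain ⟨ψ, hψ⟩ := cauchySeq_tendsto_of_complete
    (cauchySeq_of_le_geometric_two (f := fun k => D.psΦ n (k + n)) h)
  refine ⟨ψ, (tendsto_add_atTop_iff_nat n).1 hψ, ?_⟩
  simpa using dist_le_of_le_geometric_two_of_tendsto₀ (f := fun k => D.psΦ n (k + n)) h hψ

theorem ps_corr (n n' m : ℕ) (l : ℤ) :
    ∫ x, conj (D.psF n m x) * D.psF n' m x * psf (-l) x ∂psm = D.c n n' l m := by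
  have e : ∀ x, conj (D.psF n m x) * D.psF n' m x * psf (-l) x =
      ∑ a ∈ D.A n m, ∑ b ∈ D.A n' m, psf (-a + b + -l) x := by
    intro x
    rw [psF, psF, map_sum, sum_mul_sum, sum_mul]
    refine sum_congr rfl fun a _ => ?_
    rw [sum_mul]
    refine sum_congr rfl fun b _ => ?_
    rw [psf_add, psf_add, psf_neg a]
  simp only [e]
  rw [integral_finsetSum _ fun a _ => ps_int (by fun_prop), c, card_filter]
  push_cast
  refine sum_congr rfl fun a _ => ?_
  rw [integral_finsetSum _ fun b _ => ps_int (by fun_prop)]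
  have e' : ∀ b, (-a + b + -l = 0) = (a + l = b) := fun b => propext ⟨by omega, by omega⟩
  simp only [ps_orth, e']
  rw [sum_ite_eq]

theorem ps_gram {n n' m : ℕ} (h : n ≤ m) (h' : n' ≤ m) (l : ℤ) :
    (((2 * D.c n n' l m - D.c n n' (l + 1) m - D.c n n' (l - 1) m : ℝ) / D.h m : ℝ) : ℂ) =
      (√((D.A n m).card / D.h m) : ℝ) * (√((D.A n' m).card / D.h m) : ℝ) *
        ∫ x, conj (D.psφ n m x) * D.psφ n' m x * psf (-l) x ∂psm := by
  have hc : (0 : ℝ) < (D.A n m).card := by exact_mod_cast D.card_A_pos h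
  have hc' : (0 : ℝ) < (D.A n' m).card := by exact_mod_cast D.card_A_pos h'
  have hh : (0 : ℝ) < D.h m := by exact_mod_cast D.h_pos m
  have e : ∀ x, conj (D.psφ n m x) * D.psφ n' m x * psf (-l) x =
      (((√(D.A n m).card)⁻¹ * (√(D.A n' m).card)⁻¹ : ℝ) : ℂ) *
        (2 * (conj (D.psF n m x) * D.psF n' m x * psf (-l) x) -
          conj (D.psF n m x) * D.psF n' m x * psf (-(l + 1)) x -
          conj (D.psF n m x) * D.psF n' m x * psf (-(l - 1)) x) := by
    intro x
    have w : conj (D.psW m x) * D.psW m x = 1 := by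
      rw [Complex.conj_mul', psW_norm]; simp
    have u : conj (psf 1 x) * psf 1 x = 1 := by
      rw [Complex.conj_mul', psf_norm]; simp
    rw [psφ, psφ, show -(l + 1) = -l + -1 by ring, show -(l - 1) = -l + 1 by ring, psf_add, psf_add,
      psf_neg 1, Complex.ofReal_mul]
    simp only [map_mul, map_sub, map_one, Complex.conj_ofReal]
    linear_combination (((√(D.A n m).card)⁻¹ : ℝ) * ((√(D.A n' m).card)⁻¹ : ℝ) *
      (conj (D.psF n m x) * D.psF n' m x * psf (-l) x) : ℂ) *
        ((conj (psf 1 x) - 1) * (psf 1 x - 1) * w + u)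
  have i : ∀ l, Integrable (fun x => conj (D.psF n m x) * D.psF n' m x * psf (-l) x) psm := by
    intro l
    have := D.psF_cont n m
    have := D.psF_cont n' m
    exact ps_int (by fun_prop)
  simp only [e]
  rw [integral_const_mul, integral_sub (((i l).const_mul 2).sub' (i _)) (i _),
    integral_sub ((i l).const_mul 2) (i _), integral_const_mul, ps_corr, ps_corr, ps_corr]
  have k : √((D.A n m).card / D.h m : ℝ) * √((D.A n' m).card / D.h m : ℝ) *
      ((√(D.A n m).card)⁻¹ * (√(D.A n' m).card)⁻¹) = (D.h m : ℝ)⁻¹ := by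
    rw [Real.sqrt_div hc.le, Real.sqrt_div hc'.le]
    have := Real.sqrt_pos.2 hc
    have := Real.sqrt_pos.2 hc'
    have := Real.sqrt_pos.2 hh
    field_simp
    rw [Real.sq_sqrt hh.le]
  rw [← mul_assoc, ← Complex.ofReal_mul, ← Complex.ofReal_mul, k]
  push_cast
  ring

end Data

theorem ps_cont (l : ℤ) : Continuous fun q : Lp ℂ 2 psm × Lp ℂ 2 psm =>
    ∫ x, conj (q.1 x) * q.2 x * psf (-l) x ∂psm := by
  let M : Lp ℂ 2 psm →L[ℂ] Lp ℂ 2 psm :=
    (ContinuousLinearMap.mul ℂ ℂ).holderL psm ⊤ 2 2 (fourierLp ⊤ (-l))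
  have e : ∀ a b : Lp ℂ 2 psm, ∫ x, conj (a x) * b x * psf (-l) x ∂psm = inner ℂ a (M b) := by
    intro a b
    rw [L2.inner_def]
    refine integral_congr_ae ?_
    filter_upwards [(ContinuousLinearMap.mul ℂ ℂ).coeFn_holder (r := 2) (fourierLp ⊤ (-l)) b,
      coeFn_fourierLp (T := 1) ⊤ (-l)] with x h1 h2
    have h3 : M b x = psf (-l) x * b x := by
      refine h1.trans ?_
      rw [h2]; rfl
    rw [h3, RCLike.inner_apply]
    ring
  simp only [e]
  fun_prop

theorem exists_psi (D : Data) : ∃ ψ : ℕ → Lp ℂ 2 (@haarAddCircle 1 ⟨one_pos⟩),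
    (∀ (n n' : ℕ) (l : ℤ), Tendsto (fun m =>
      (((2 * D.c n n' l m - D.c n n' (l + 1) m - D.c n n' (l - 1) m : ℝ) / D.h m : ℝ) : ℂ)) atTop
      (𝓝 (∫ x, (starRingEnd ℂ) (ψ n x) * ψ n' x * fourier (-l) x ∂(@haarAddCircle 1 ⟨one_pos⟩)))) ∧
    ∀ G : Lp ℂ 2 (@haarAddCircle 1 ⟨one_pos⟩),
      (∀ (n : ℕ) (l : ℤ), ∫ x, (starRingEnd ℂ) (ψ n x) * G x * fourier l x
        ∂(@haarAddCircle 1 ⟨one_pos⟩) = 0) → G = 0 := by
  choose ψ hψ hψ' using D.ps_limit
  choose ρ hρ _ _ hρ' using D.exists_rho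
  refine ⟨fun n => ((√(ρ n) : ℝ) : ℂ) • ψ n, fun n n' l => ?_, fun G hG => ?_⟩
  · have t1 := ((ps_cont l).tendsto (ψ n, ψ n')).comp ((hψ n).prodMk_nhds (hψ n'))
    have t2 := fun n => (Complex.continuous_ofReal.tendsto _).comp (hρ' n).sqrt
    have t3 := ((t2 n).mul (t2 n')).mul t1
    convert t3.congr' _ using 2
    · rw [← integral_const_mul]
      refine integral_congr_ae ?_
      filter_upwards [Lp.coeFn_smul ((√(ρ n) : ℝ) : ℂ) (ψ n),
        Lp.coeFn_smul ((√(ρ n') : ℝ) : ℂ) (ψ n')] with x h1 h2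
      rw [h1, h2, psf]
      simp only [Pi.smul_apply, smul_eq_mul, map_mul, Complex.conj_ofReal]
      ring
    · filter_upwards [eventually_ge_atTop n, eventually_ge_atTop n'] with m h1 h2
      rw [D.ps_gram h1 h2]
      simp only [Function.comp_apply]
      congr 1
      refine integral_congr_ae ?_
      filter_upwards [D.psΦ_coe n m, D.psΦ_coe n' m] with x k1 k2
      rw [k1, k2]
  · classical
    let f : PsT → ℝ := fun x => if G x = 0 then 0 else ‖psf 1 x - 1‖ ^ 2
    have f0 : ∀ x, 0 ≤ f x := fun x => by simp only [f]; split_ifs <;> positivity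
    have fi : Integrable f psm := by
      have hc : Continuous fun x => ‖psf 1 x - 1‖ ^ 2 := by fun_prop
      refine (hc.integrable_of_hasCompactSupport (HasCompactSupport.of_compactSpace _)).mono'
        (Measurable.ite (measurableSet_eq_fun (Lp.stronglyMeasurable G).measurable
          measurable_const) measurable_const hc.measurable).aestronglyMeasurable
        (Eventually.of_forall fun x => ?_)
      rw [Real.norm_eq_abs, abs_of_nonneg (f0 x)]
      simp only [f]; split_ifs
      · positivity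
      · exact le_rfl
    have key : ∀ n : ℕ, ∫ x, f x ∂psm ≤ 4 * (1 / 4) ^ n := by
      intro n
      have h1 := ps_unique (H := fun x => conj ((((√(ρ n) : ℝ) : ℂ) • ψ n) x) * G x)
        (by simpa only [RCLike.inner_apply'] using L2.integrable_inner (𝕜 := ℂ) _ G) (hG n)
      have h2 : ‖D.psΦ n n - ψ n‖ ^ 2 ≤ 4 * (1 / 4) ^ n := by
        have k := hψ' n
        rw [dist_eq_norm] at k
        refine (pow_le_pow_left₀ (norm_nonneg _) k 2).trans (le_of_eq ?_)
        rw [div_pow, ← pow_mul, mul_comm n, pow_mul, one_div_pow]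
        norm_num
        ring
      refine le_trans ?_ h2
      rw [ps_norm_sq]
      refine integral_mono_ae fi (Lp.memLp _).norm.integrable_sq ?_
      filter_upwards [h1, Lp.coeFn_smul ((√(ρ n) : ℝ) : ℂ) (ψ n), Lp.coeFn_sub (D.psΦ n n) (ψ n),
        D.psΦ_coe n n] with x k1 k2 k3 k4
      simp only [f]
      split_ifs with k
      · positivity
      · have k5 := Real.sqrt_pos.2 (hρ n)
        rw [k2] at k1
        have k6 : ψ n x = 0 := by simpa [k, k5.ne'] using k1
        rw [k3, Pi.sub_apply, k6, k4, sub_zero]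
        simp [Data.psφ, Data.psF, D.A_self, psf_zero, D.psW_norm]
    have h0 : ∫ x, f x ∂psm = 0 := by
      refine le_antisymm (ge_of_tendsto' (x := atTop) ?_ key) (integral_nonneg f0)
      simpa using (tendsto_pow_atTop_nhds_zero_of_lt_one (show (0 : ℝ) ≤ 1 / 4 by norm_num)
        (by norm_num)).const_mul 4
    rw [integral_eq_zero_iff_of_nonneg f0 fi] at h0
    refine Lp.eq_zero_iff_ae_eq_zero.2 ?_
    filter_upwards [h0, ps_ae_ne] with x k1 k2
    by_contra k
    simp only [f, Pi.zero_apply] at k k1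
    rw [if_neg k] at k1
    exact k2 (sub_eq_zero.1 (norm_eq_zero.1 (pow_eq_zero_iff two_ne_zero |>.1 k1)))

end Vale.Agent.P130
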