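import Vale.Agent.P130.DataEx
import Vale.Agent.P130.Measure
import Vale.Agent.P130.Psi
import Vale.Agent.P130.Transfer

/-! The shift on the symbolic space has simple Lebesgue spectrum. -/

namespace Vale.Agent.P130

open Filter MeasureTheory Topology AddCircle
open scoped InnerProductSpace ENNReal

theorem sh_zero (x : Sp) : sh 0 x = x := by funext q; simp [sh]

theorem sh_add (k l : ℤ) (x : Sp) : sh k (sh l x) = sh (k + l) x := by
  funext q; simp [sh, add_assoc]

theorem measurable_sh (k : ℤ) : Measurable (sh k) :=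
  measurable_pi_lambda _ fun _ => measurable_pi_apply _

theorem measurableSet_Bs (k : ℤ) (n : ℕ) : MeasurableSet (Bs k n) :=
  (measurable_pi_apply (X := fun _ : ℤ × ℕ => Bool) (k, n)) (measurableSet_singleton true)

theorem preimage_Bs (k l : ℤ) (n : ℕ) : sh k ⁻¹' Bs l n = Bs (l + k) n := rfl

/-- The shift as a measurable equivalence. -/
def shift : Sp ≃ᵐ Sp where
  toFun := sh 1
  invFun := sh (-1)
  left_inv x := by rw [sh_add]; simp [sh_zero]
  right_inv x := by rw [sh_add]; simp [sh_zero]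
  measurable_toFun := measurable_sh 1
  measurable_invFun := measurable_sh (-1)

theorem shift_zpow (n : ℤ) (x : Sp) : (shift.toEquiv ^ n : Equiv.Perm Sp) x = sh n x := by
  induction n using Int.induction_on generalizing x with
  | zero => simp [sh_zero]
  | succ n ih =>
    rw [zpow_add_one, Equiv.Perm.mul_apply, ih]
    exact sh_add n 1 x
  | pred n ih =>
    rw [zpow_sub_one, Equiv.Perm.mul_apply, ih]
    exact sh_add (-n) (-1) x

/-- Haar measure on the circle of length one. -/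
noncomputable abbrev haar1 : Measure (AddCircle (1 : ℝ)) := @haarAddCircle 1 ⟨one_pos⟩

/-- Multiplication by a character. -/
noncomputable def mulF (k : ℤ) : Lp ℂ 2 haar1 →L[ℂ] Lp ℂ 2 haar1 :=
  (ContinuousLinearMap.mul ℂ ℂ).holderL haar1 ∞ 2 2 (@fourierLp 1 ⟨one_pos⟩ ∞ _ k)

theorem coeFn_mulF (k : ℤ) (g : Lp ℂ 2 haar1) :
    mulF k g =ᵐ[haar1] fun x => fourier k x * g x := by
  filter_upwards [(ContinuousLinearMap.mul ℂ ℂ).coeFn_holder (r := 2)
    (@fourierLp 1 ⟨one_pos⟩ ∞ _ k) g, @coeFn_fourierLp 1 ⟨one_pos⟩ ∞ _ k] with x h1 h2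
  rw [mulF, ContinuousLinearMap.holderL_apply_apply, h1, h2]
  rfl

theorem mulF_mulF (k l : ℤ) (g : Lp ℂ 2 haar1) : mulF k (mulF l g) = mulF (k + l) g := by
  apply Lp.ext
  filter_upwards [coeFn_mulF k (mulF l g), coeFn_mulF l g, coeFn_mulF (k + l) g] with x h1 h2 h3
  rw [h1, h2, h3, fourier_add, mul_assoc]

theorem mulF_one (k : ℤ) :
    mulF k (@fourierLp 1 ⟨one_pos⟩ 2 _ 0) = @fourierLp 1 ⟨one_pos⟩ 2 _ k := by
  apply Lp.ext
  filter_upwards [coeFn_mulF k (@fourierLp 1 ⟨one_pos⟩ 2 _ 0), @coeFn_fourierLp 1 ⟨one_pos⟩ 2 _ 0,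
    @coeFn_fourierLp 1 ⟨one_pos⟩ 2 _ k] with x h1 h2 h3
  rw [h1, h2, h3, fourier_zero, mul_one]

theorem inner_mulF (k : ℤ) (f g : Lp ℂ 2 haar1) :
    ⟪mulF k f, g⟫_ℂ = ∫ x, (starRingEnd ℂ) (f x) * g x * fourier (-k) x ∂haar1 := by
  rw [L2.inner_def]
  refine integral_congr_ae ?_
  filter_upwards [coeFn_mulF k f] with x h1
  rw [h1, fourier_neg, RCLike.inner_apply, map_mul]
  ring

theorem inner_mulF_mulF (k l : ℤ) (f g : Lp ℂ 2 haar1) :
    ⟪mulF k f, mulF l g⟫_ℂ = ∫ x, (starRingEnd ℂ) (f x) * g x * fourier (l - k) x ∂haar1 := by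
  rw [inner_mulF]
  refine integral_congr_ae ?_
  filter_upwards [coeFn_mulF l g] with x h1
  rw [h1, sub_eq_add_neg, fourier_add]
  ring

theorem main : ∃ (μ : Measure Sp) (_ : IsProbabilityMeasure μ), (∀ x, μ {x} = 0) ∧
    MeasurePreserving shift μ μ ∧ ∃ (f : Lp ℂ 2 μ) (b : ℤ → Lp ℂ 2 μ),
      (∀ n : ℤ, b n =ᵐ[μ] f ∘ sh n) ∧ Orthonormal ℂ b ∧
      ∀ g : Lp ℂ 2 μ, g ∈ (Submodule.span ℂ (Set.range b)).topologicalClosure ↔
        ∫ x, g x ∂μ = 0 := by
  obtain ⟨D⟩ := exists_data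
  obtain ⟨μ, hμ, 𝒰, hU, hinv, hcorr, hna, htot⟩ := exists_system D
  obtain ⟨ψ, hψ1, hψ2⟩ := exists_psi D
  refine ⟨μ, hμ, NullSingletonClass.measure_singleton (self := hna), hinv 1, ?_⟩
  let ind : ℤ → ℕ → Lp ℂ 2 μ := fun k n =>
    indicatorConstLp 2 (measurableSet_Bs k n) (measure_ne_top μ _) (1 : ℂ)
  let U : ℤ → Lp ℂ 2 μ →ₗᵢ[ℂ] Lp ℂ 2 μ := fun k => Lp.compMeasurePreservingₗᵢ ℂ (sh k) (hinv k)
  have hUi : ∀ k l n, U k (ind l n) = ind (l + k) n := fun k l n => rfl
  let v : ℤ × ℕ → Lp ℂ 2 μ := fun i => ind (i.1 + 1) i.2 - ind i.1 i.2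
  let w : ℤ × ℕ → Lp ℂ 2 haar1 := fun i => mulF (-i.1) (ψ i.2)
  have hii : ∀ k n l n', ⟪ind k n, ind l n'⟫_ℂ = μ.real (Bs 0 n ∩ Bs (l - k) n') := by
    intro k n l n'
    rw [L2.inner_indicatorConstLp_one_indicatorConstLp_one]
    have h1 : Bs k n ∩ Bs l n' = sh k ⁻¹' (Bs 0 n ∩ Bs (l - k) n') := by
      rw [Set.preimage_inter, preimage_Bs, preimage_Bs, zero_add, sub_add_cancel]
    rw [h1, (hinv k).measureReal_preimage
      ((measurableSet_Bs _ _).inter (measurableSet_Bs _ _)).nullMeasurableSet]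
    rfl
  have hg : ∀ i j, ⟪v i, v j⟫_ℂ = ⟪w i, w j⟫_ℂ := by
    rintro ⟨k, n⟩ ⟨l, n'⟩
    simp only [v, w, inner_sub_left, inner_sub_right, hii, inner_mulF_mulF]
    have h1 := (hψ1 n n' (l - k)).mono_left hU
    have h2 := ((((hcorr n n' (l - k)).const_mul 2).sub (hcorr n n' (l - k + 1))).sub
      (hcorr n n' (l - k - 1))).ofReal
    simp only [← mul_div_assoc, ← sub_div] at h2
    have h3 := tendsto_nhds_unique h1 h2
    rw [show -l - -k = -(l - k) by ring, h3, show l + 1 - (k + 1) = l - k by ring,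
      show l - (k + 1) = l - k - 1 by ring, show l + 1 - k = l - k + 1 by ring]
    push_cast
    ring
  have hd : Dense (Submodule.span ℂ (Set.range w) : Set (Lp ℂ 2 haar1)) := by
    rw [Submodule.dense_iff_topologicalClosure_eq_top,
      Submodule.topologicalClosure_eq_top_iff, Submodule.eq_bot_iff]
    intro G hG
    refine hψ2 G fun n l => ?_
    have := hG (w (l, n)) (Submodule.subset_span ⟨_, rfl⟩)
    simpa only [w, inner_mulF, neg_neg] using this
  obtain ⟨V, hV⟩ := transfer v w hg hd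
  have hVU : ∀ k y, V (mulF (-k) y) = U k (V y) := by
    intro k y
    have : V.toContinuousLinearMap.comp (mulF (-k)) =
        (U k).toContinuousLinearMap.comp V.toContinuousLinearMap := by
      refine ContinuousLinearMap.ext_on hd ?_
      rintro _ ⟨⟨l, n⟩, rfl⟩
      have h1 : mulF (-k) (w (l, n)) = w (l + k, n) := by
        simp only [w, mulF_mulF]
        congr 2
        ring
      change V (mulF (-k) (w (l, n))) = U k (V (w (l, n)))
      rw [h1, hV, hV]
      simp only [v, map_sub, hUi]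
      congr 2
      ring
    exact congrArg (fun L => L y) this
  let one : Lp ℂ 2 μ := indicatorConstLp 2 MeasurableSet.univ (measure_ne_top μ _) (1 : ℂ)
  have hone : ∀ g : Lp ℂ 2 μ, ⟪one, g⟫_ℂ = ∫ x, g x ∂μ := fun g => by
    rw [L2.inner_indicatorConstLp_one, Measure.restrict_univ]
  have hV0 : ∀ y, ⟪one, V y⟫_ℂ = 0 := by
    intro y
    have : (innerSL ℂ one).comp V.toContinuousLinearMap = 0 := by
      refine ContinuousLinearMap.ext_on hd ?_
      rintro _ ⟨⟨l, n⟩, rfl⟩
      change ⟪one, V (w (l, n))⟫_ℂ = 0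
      have h1 : ∀ k, ⟪one, ind k n⟫_ℂ = μ.real (Bs 0 n) := by
        intro k
        rw [L2.inner_indicatorConstLp_one_indicatorConstLp_one, Set.univ_inter,
          ← (hinv k).measureReal_preimage (measurableSet_Bs 0 n).nullMeasurableSet, preimage_Bs,
          zero_add]
        rfl
      rw [hV]
      simp only [v, inner_sub_right, h1, sub_self]
    exact congrArg (fun L => L y) this
  let b : ℤ → Lp ℂ 2 μ := fun n => V (@fourierLp 1 ⟨one_pos⟩ 2 _ (-n))
  refine ⟨b 0, b, fun n => ?_, ?_, fun g => ?_⟩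
  · have : b n = U n (b 0) := by
      simp only [b, neg_zero]
      rw [← hVU, mulF_one]
    rw [this]
    exact Lp.coeFn_compMeasurePreserving _ (hinv n)
  · exact V.orthonormal_comp_iff.2 ((@orthonormal_fourier 1 ⟨one_pos⟩).comp _ neg_injective)
  · obtain ⟨S, hS⟩ : ∃ S, S = (Submodule.span ℂ (Set.range b)).topologicalClosure := ⟨_, rfl⟩
    have hSc : IsClosed (S : Set (Lp ℂ 2 μ)) := hS ▸ Submodule.isClosed_topologicalClosure _
    have hS0 : ∀ g ∈ S, ⟪one, g⟫_ℂ = 0 := by
      have : S ≤ (innerSL ℂ one).ker := by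
        rw [hS]
        refine Submodule.topologicalClosure_minimal _ ?_ (innerSL ℂ one).isClosed_ker
        rw [Submodule.span_le]
        rintro _ ⟨n, rfl⟩
        exact hV0 _
      exact fun g hg => this hg
    have hVS : ∀ y, V y ∈ S := by
      have h1 : (Submodule.span ℂ (Set.range (@fourierLp 1 ⟨one_pos⟩ 2 _))).topologicalClosure ≤
          S.comap V.toLinearMap := by
        refine Submodule.topologicalClosure_minimal _ ?_ (hSc.preimage V.continuous)
        rw [Submodule.span_le]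
        rintro _ ⟨n, rfl⟩
        rw [hS]
        exact Submodule.le_topologicalClosure _ (Submodule.subset_span ⟨-n, by simp [b]⟩)
      rw [span_fourierLp_closure_eq_top (by norm_num)] at h1
      exact fun y => h1 Submodule.mem_top
    rw [← hS]
    refine ⟨fun hg => by rw [← hone]; exact hS0 g hg, fun hg => ?_⟩
    have : CompleteSpace S := hSc.completeSpace_coe
    obtain ⟨g₁, hg₁, g₂, hg₂, rfl⟩ := S.exists_add_mem_mem_orthogonal g
    have h1 : ∫ x, g₂ x ∂μ = 0 := by
      rw [← hone, inner_add_right, hS0 g₁ hg₁, zero_add, hone] at hg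
      exact hg
    have h2 : g₂ = 0 := by
      apply Lp.ext
      refine (htot g₂ ((Lp.memLp g₂).integrable one_le_two) h1 fun k n => ?_).trans
        (Lp.coeFn_zero _ _ _).symm
      have h3 := hg₂ _ (hVS (w (k, n)))
      rw [hV] at h3
      simp only [v, inner_sub_left, ind, L2.inner_indicatorConstLp_one] at h3
      exact sub_eq_zero.1 h3
    rw [h2, add_zero]
    exact hg₁

end Vale.Agent.P130
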