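import Vale.Agent.P130.Defs

/-! Combinatorics of the towers. -/

namespace Vale.Agent.P130

open Finset Filter Topology

namespace Data

variable (D : Data)

theorem h_pos (m : ℕ) : 0 < D.h m := lt_of_lt_of_le (by positivity) (D.hh m)

theorem h_le_H (m : ℕ) : D.h m ≤ D.H m := le_trans (Nat.le_add_left _ _) (D.hξ m 0)

theorem H_pos (m : ℕ) : 0 < D.H m := (D.h_pos m).trans_le (D.h_le_H m)

theorem tendsto_h : Tendsto D.h atTop atTop :=
  tendsto_atTop_mono D.hh (tendsto_pow_atTop_atTop_of_one_lt one_lt_two)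

theorem A_self (n : ℕ) : D.A n n = {0} := by
  cases n <;> simp [A]

theorem A_of_lt {n m : ℕ} (h : m < n) : D.A n m = ∅ := by
  induction m with
  | zero => simp [A, h.ne']
  | succ m ih =>
    simp only [A, if_neg h.ne', ih (by omega), image_empty]
    ext; simp

theorem A_succ {n m : ℕ} (h : n ≤ m) : D.A n (m + 1) =
    (range (D.p m)).biUnion fun j => (D.A n m).image fun a : ℤ => a + (D.H m * j + D.ξ m j : ℕ) := by
  simp only [A, if_neg (show n ≠ m + 1 by omega)]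

theorem mem_A_succ {n m : ℕ} (h : n ≤ m) (a : ℤ) : a ∈ D.A n (m + 1) ↔
    ∃ j < D.p m, a - (D.H m * j + D.ξ m j : ℕ) ∈ D.A n m := by
  rw [D.A_succ h]
  simp only [mem_biUnion, mem_range, mem_image]
  constructor
  · rintro ⟨j, hj, b, hb, rfl⟩
    exact ⟨j, hj, by simpa using hb⟩
  · rintro ⟨j, hj, hb⟩
    exact ⟨j, hj, _, hb, by ring⟩

theorem le_of_mem_A {n m : ℕ} {a : ℤ} (ha : a ∈ D.A n m) : n ≤ m := by
  by_contra h
  rw [D.A_of_lt (not_le.1 h)] at ha
  simp at ha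

theorem A_bound {n m : ℕ} {a : ℤ} (ha : a ∈ D.A n m) : 0 ≤ a ∧ a + D.h n ≤ D.h m := by
  have hnm := D.le_of_mem_A ha
  induction m, hnm using Nat.le_induction generalizing a with
  | base =>
    rw [A_self, mem_singleton] at ha
    simp [ha]
  | succ m hnm ih =>
    obtain ⟨j, hj, hb⟩ := (D.mem_A_succ hnm a).1 ha
    obtain ⟨h1, h2⟩ := ih hb
    have h3 : D.H m * j + D.ξ m j + D.h m ≤ D.h (m + 1) := by
      have h4 := D.hξ m j
      have h5 : D.H m * (j + 1) ≤ D.H m * D.p m := Nat.mul_le_mul_left _ hj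
      rw [D.hsucc, mul_comm (D.p m)]
      rw [mul_add, mul_one] at h5
      omega
    omega

theorem A_nonneg {n m : ℕ} {a : ℤ} (ha : a ∈ D.A n m) : 0 ≤ a := (D.A_bound ha).1

theorem A_lt {n m : ℕ} {a : ℤ} (ha : a ∈ D.A n m) : a < D.h m := by
  have h1 := (D.A_bound ha).2
  have h2 := D.h_pos n
  omega

theorem block_unique {m j j' : ℕ} {a a' : ℤ} (h0 : 0 ≤ a) (h1 : a < D.h m) (h0' : 0 ≤ a')
    (h1' : a' < D.h m)
    (h : a + (D.H m * j + D.ξ m j : ℕ) = a' + (D.H m * j' + D.ξ m j' : ℕ)) : j = j' := by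
  have h2 := D.hξ m j
  have h3 := D.hξ m j'
  rcases lt_trichotomy j j' with hj | hj | hj
  · have h5 : D.H m * (j + 1) ≤ D.H m * j' := Nat.mul_le_mul_left _ hj
    rw [mul_add, mul_one] at h5
    omega
  · exact hj
  · have h5 : D.H m * (j' + 1) ≤ D.H m * j := Nat.mul_le_mul_left _ hj
    rw [mul_add, mul_one] at h5
    omega

theorem sum_A_succ {M : Type*} [AddCommMonoid M] {n m : ℕ} (h : n ≤ m) (f : ℤ → M) :
    ∑ a ∈ D.A n (m + 1), f a =
      ∑ j ∈ range (D.p m), ∑ a ∈ D.A n m, f (a + (D.H m * j + D.ξ m j : ℕ)) := by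
  rw [D.A_succ h, sum_biUnion]
  · refine sum_congr rfl fun j _ => ?_
    rw [sum_image]
    intro a _ b _ hab
    exact add_right_cancel hab
  · intro j _ j' _ hj
    rw [Function.onFun, disjoint_left]
    intro x hx hx'
    obtain ⟨a, ha, rfl⟩ := mem_image.1 hx
    obtain ⟨a', ha', h'⟩ := mem_image.1 hx'
    exact hj (D.block_unique (D.A_nonneg ha) (D.A_lt ha) (D.A_nonneg ha') (D.A_lt ha') h'.symm)

theorem card_A_succ {n m : ℕ} (h : n ≤ m) : (D.A n (m + 1)).card = D.p m * (D.A n m).card := by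
  rw [card_eq_sum_ones, D.sum_A_succ h]
  simp

theorem card_A_pos {n m : ℕ} (h : n ≤ m) : 0 < (D.A n m).card := by
  induction m, h using Nat.le_induction with
  | base => simp [A_self]
  | succ m hnm ih => rw [D.card_A_succ hnm]; exact Nat.mul_pos (D.hp m) ih

/-- Above a base of tower `n` one sees the pattern of tower `n`. -/
theorem mem_A_concat {n' n m : ℕ} (hn : n' ≤ n) {l i : ℤ} (hl : l ∈ D.A n m) (h0 : 0 ≤ i)
    (h1 : i < D.h n) : l + i ∈ D.A n' m ↔ i ∈ D.A n' n := by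
  have hnm := D.le_of_mem_A hl
  induction m, hnm using Nat.le_induction generalizing l with
  | base =>
    rw [A_self, mem_singleton] at hl
    simp [hl]
  | succ m hnm ih =>
    obtain ⟨j, hj, hb⟩ := (D.mem_A_succ hnm l).1 hl
    refine Iff.trans ?_ (ih hb)
    rw [D.mem_A_succ (hn.trans hnm)]
    obtain ⟨h2, h3⟩ := D.A_bound hb
    constructor
    · rintro ⟨j', -, hb'⟩
      have : j = j' := D.block_unique (a := l - (D.H m * j + D.ξ m j : ℕ) + i) (by omega)
        (by omega) (D.A_nonneg hb') (D.A_lt hb') (by ring)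
      subst this
      convert hb' using 1
      ring
    · intro hb'
      refine ⟨j, hj, ?_⟩
      convert hb' using 1
      ring

theorem c_self (n m : ℕ) : D.c n n 0 m = (D.A n m).card := by
  unfold c
  rw [filter_true_of_mem fun a ha => by simpa using ha]

theorem ratio_succ {n m : ℕ} (h : n ≤ m) :
    ((D.A n (m + 1)).card : ℝ) / D.h (m + 1) = (D.A n m).card / D.H m := by
  have h1 : (D.p m : ℝ) ≠ 0 := by exact_mod_cast (D.hp m).ne'
  rw [D.card_A_succ h, D.hsucc]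
  push_cast
  rw [mul_div_mul_left _ _ h1]

theorem ratio_succ_le {n m : ℕ} (h : n ≤ m) :
    ((D.A n (m + 1)).card : ℝ) / D.h (m + 1) ≤ (D.A n m).card / D.h m := by
  rw [D.ratio_succ h]
  exact div_le_div_of_nonneg_left (by positivity) (by exact_mod_cast D.h_pos m)
    (by exact_mod_cast D.h_le_H m)

theorem ratio_upper {n m : ℕ} (h : n ≤ m) :
    D.h n * (((D.A n m).card : ℝ) / D.h m) ≤ 1 := by
  induction m, h using Nat.le_induction with
  | base =>
    have : (D.h n : ℝ) ≠ 0 := by exact_mod_cast (D.h_pos n).ne'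
    simp [A_self, this]
  | succ m hnm ih =>
    exact (mul_le_mul_of_nonneg_left (D.ratio_succ_le hnm) (by positivity)).trans ih

theorem ratio_lower' {n m : ℕ} (h : n ≤ m) :
    1 - 1 / 2 ^ (n + 1) + 1 / 2 ^ (m + 1) ≤ D.h n * (((D.A n m).card : ℝ) / D.h m) := by
  induction m, h using Nat.le_induction with
  | base =>
    have : (D.h n : ℝ) ≠ 0 := by exact_mod_cast (D.h_pos n).ne'
    simp [A_self, this]
  | succ m hnm ih =>
    have hh : (0 : ℝ) < D.h m := by exact_mod_cast D.h_pos m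
    have hH : (0 : ℝ) < D.H m := by exact_mod_cast D.H_pos m
    have h1 := D.ratio_upper hnm
    have h2 : 1 - 1 / 2 ^ (m + 2) ≤ (D.h m : ℝ) / D.H m := by
      rw [le_div_iff₀ hH]; exact D.hH m
    have h3 : D.h n * (((D.A n (m + 1)).card : ℝ) / D.h (m + 1)) =
        D.h n * (((D.A n m).card : ℝ) / D.h m) * (D.h m / D.H m) := by
      rw [D.ratio_succ hnm]; field_simp
    rw [h3]
    obtain ⟨x, hx⟩ : ∃ x, x = D.h n * (((D.A n m).card : ℝ) / D.h m) := ⟨_, rfl⟩
    have hx0 : 0 ≤ x := by rw [hx]; positivity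
    rw [← hx] at ih h1 ⊢
    have h4 : (1 : ℝ) / 2 ^ (m + 1) = 2 * (1 / 2 ^ (m + 1 + 1)) := by
      rw [pow_succ _ (m + 1)]; field_simp
    have h5 : (0 : ℝ) ≤ 1 / 2 ^ (m + 1 + 1) := by positivity
    have h6 := mul_le_mul_of_nonneg_left h2 hx0
    have h7 : m + 2 = m + 1 + 1 := rfl
    rw [h7] at h6
    nlinarith

theorem ratio_lower {n m : ℕ} (h : n ≤ m) :
    1 - 1 / 2 ^ (n + 1) ≤ D.h n * (((D.A n m).card : ℝ) / D.h m) := by
  have h1 := D.ratio_lower' h
  have h2 : (0 : ℝ) ≤ 1 / 2 ^ (m + 1) := by positivity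
  linarith

theorem exists_rho (n : ℕ) : ∃ ρ : ℝ, 0 < ρ ∧ 1 - 1 / 2 ^ (n + 1) ≤ D.h n * ρ ∧ D.h n * ρ ≤ 1 ∧
    Tendsto (fun m => ((D.A n m).card : ℝ) / D.h m) atTop (𝓝 ρ) := by
  have hanti : Antitone fun k => ((D.A n (k + n)).card : ℝ) / D.h (k + n) :=
    antitone_nat_of_succ_le fun k => by
      have := D.ratio_succ_le (show n ≤ k + n by omega)
      rwa [show k + 1 + n = k + n + 1 by ring]
  have hbdd : BddBelow (Set.range fun k => ((D.A n (k + n)).card : ℝ) / D.h (k + n)) :=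
    ⟨0, by rintro _ ⟨k, rfl⟩; positivity⟩
  have hlim := (tendsto_add_atTop_iff_nat (f := fun m => ((D.A n m).card : ℝ) / D.h m) n).1
    (tendsto_atTop_ciInf hanti hbdd)
  obtain ⟨ρ, hρ⟩ : ∃ ρ, ρ = ⨅ k, ((D.A n (k + n)).card : ℝ) / D.h (k + n) := ⟨_, rfl⟩
  rw [← hρ] at hlim
  have hlow : 1 - 1 / 2 ^ (n + 1) ≤ D.h n * ρ :=
    ge_of_tendsto (hlim.const_mul _) ((eventually_ge_atTop n).mono fun m hm => D.ratio_lower hm)
  refine ⟨ρ, ?_, hlow,
    le_of_tendsto (hlim.const_mul _) ((eventually_ge_atTop n).mono fun m hm => D.ratio_upper hm),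
    hlim⟩
  have h1 : (1 : ℝ) / 2 ^ (n + 1) < 1 := by
    rw [div_lt_one (by positivity)]
    exact one_lt_pow₀ one_lt_two (by omega)
  have hh : (0 : ℝ) < D.h n := by exact_mod_cast D.h_pos n
  exact (mul_pos_iff_of_pos_left hh).1 (by linarith)

end Data

end Vale.Agent.P130
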