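import Vale.Agent.P130.Defs
import Vale.Agent.P110.Resonant

/-! Lifting a labelled trigonometric polynomial to one with primitive frequencies. -/

namespace Vale.Agent.P130

open Finset MeasureTheory Filter Vale.Agent.P110 Vale.Agent.P110.Res

theorem re_conv_ge {J : Type*} [Fintype J] {D : ℕ} (hD : 0 < D) (a : J → ℂ) (φ : J → ℝ → ℂ)
    (hφ : ∀ j, IntervalIntegrable (φ j) volume 0 1) {c : ℝ}
    (h : ∀ s, -c ≤ (∑ j, a j * φ j s).re) (t : ℝ) :
    -c ≤ (∑ j, a j * ∫ s in (0 : ℝ)..1, φ j s * K D (t - s)).re := by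
  have hK := continuous_K D
  have hi : ∀ j, IntervalIntegrable (fun s => a j * (φ j s * K D (t - s))) volume 0 1 :=
    fun j => ((hφ j).mul_continuousOn (Continuous.continuousOn (by fun_prop))).const_mul _
  have hi2 : IntervalIntegrable (fun s => ∑ j, a j * (φ j s * K D (t - s))) volume 0 1 := by
    have := IntervalIntegrable.sum univ fun j _ => hi j
    rwa [← Finset.sum_fn]
  simp only [← intervalIntegral.integral_const_mul]
  rw [← intervalIntegral.integral_finsetSum fun j _ => hi j, ← Complex.reCLM_apply,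
    ← Complex.reCLM.intervalIntegral_comp_comm hi2]
  have h1 : -c = ∫ s in (0 : ℝ)..1, -c * K D (t - s) := by
    rw [intervalIntegral.integral_const_mul, integral_K hD, mul_one]
  rw [h1]
  refine intervalIntegral.integral_mono_on zero_le_one
    (Continuous.intervalIntegrable (by fun_prop) _ _) ?_ fun s _ => ?_
  · exact ⟨Complex.reCLM.integrable_comp hi2.1, Complex.reCLM.integrable_comp hi2.2⟩
  · simp only [← mul_assoc, ← sum_mul, Complex.reCLM_apply, Complex.re_mul_ofReal]
    exact mul_le_mul_of_nonneg_right (h s) (K_nonneg _ _)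

section Lift

variable {S δ₀ : Type} [Fintype S] [DecidableEq S] [Fintype δ₀] [DecidableEq δ₀]
  (k : S → δ₀ → ℤ)

/-- Lower bound for the real part of a trigonometric polynomial. -/
def LB (c : ℝ) (a : S → ℂ) : Prop := ∀ t : δ₀ → ℝ, -c ≤ (∑ j, a j * e (∑ i, k j i * t i)).re

/-- The shifted character. -/
noncomputable def shf (i j : S) (s : ℝ) : ℂ :=
  e (∑ l, k j l * (s * k i l / ∑ l', (k i l' : ℝ) ^ 2))

omit [Fintype S] [DecidableEq S] [DecidableEq δ₀] in
theorem continuous_shf (i j : S) : Continuous (shf k i j) := by unfold shf; fun_prop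

omit [DecidableEq S] [DecidableEq δ₀] in
theorem LB.conv {D : ℕ} (hD : 0 < D) {c : ℝ} {a : S → ℂ} (ha : LB k c a) (i : S) (τ : ℝ) :
    LB k c fun j => a j * ∫ s in (0 : ℝ)..1, shf k i j s * K D (τ - s) := by
  intro t
  have h := re_conv_ge hD (fun j => a j * e (∑ i, k j i * t i)) (shf k i)
    (fun j => (continuous_shf k i j).intervalIntegrable _ _) (c := c) (fun s => by
      have := ha fun l => t l + s * k i l / ∑ l', (k i l' : ℝ) ^ 2
      simpa only [mul_add, sum_add_distrib, e_add, ← mul_assoc, shf] using this) τ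
  convert h using 3 with j
  ring

omit [DecidableEq δ₀] in
theorem LB.conv_prod {D : ℕ} (hD : 0 < D) {c : ℝ} {a : S → ℂ} (ha : LB k c a) (τ : S → ℝ)
    (T : Finset S) :
    LB k c fun j => a j * ∏ i ∈ T, ∫ s in (0 : ℝ)..1, shf k i j s * K D (τ i - s) := by
  induction T using Finset.induction_on with
  | empty => simpa using ha
  | insert i T hi ih =>
    have := ih.conv k hD i (τ i)
    simp only [prod_insert hi]
    convert this using 2
    ring

omit [Fintype S] [DecidableEq S] [DecidableEq δ₀] in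
theorem hat_shf_self (j : S) (hj : k j ≠ 0) (m : ℤ) (h : hat (shf k j j) m ≠ 0) : m = 1 := by
  by_contra hm
  apply h
  have hpos : (0 : ℝ) < ∑ l', (k j l' : ℝ) ^ 2 := by
    obtain ⟨l, hl⟩ := Function.ne_iff.1 hj
    refine sum_pos' (fun _ _ => by positivity) ⟨l, mem_univ _, ?_⟩
    have : (k j l : ℝ) ≠ 0 := by exact_mod_cast hl
    positivity
  have := integral_e_int 0 (1 - m)
  rw [if_neg (by omega), zero_add] at this
  rw [hat, ← this]
  congr 1
  funext s
  rw [shf, ← e_add]
  congr 1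
  have h1 : ∑ l, (k j l : ℝ) * (s * k j l / ∑ l', (k j l' : ℝ) ^ 2) = s := by
    simp only [← mul_div_assoc]
    rw [← sum_div, div_eq_iff hpos.ne', mul_sum]
    exact sum_congr rfl fun l _ => by ring
  rw [h1]
  push_cast
  ring

theorem lift {N : ℕ} {X : Type} [Fintype X] [DecidableEq X] (hk : Function.Injective k)
    (v₀ : δ₀ → ℤ) (hv₀ : ∀ j, 0 < ∑ i, k j i * v₀ i) (γ : S → ℂ) (lab : S → X)
    (P : (X → ℝ) → ℝ → Prop)
    (hP : ∀ b : X → ℝ, (∀ l c, P l c → -c ≤ ∑ x, l x * b x) → InK N b)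
    (hgood : ∀ l c, P l c → LB k c fun j => (2 * l (lab j) : ℝ) * γ j)
    {ε ε' : ℝ} (hε' : 0 ≤ ε') (hlt : ε' < ε) (hm : 1 - ε' ≤ 2 * ∑ j, ‖γ j‖ ^ 2) :
    Nonempty (VRes N X ε) := by
  classical
  obtain ⟨J, hJ⟩ : ∃ J, J = Fintype.card S := ⟨_, rfl⟩
  obtain ⟨η, hη⟩ : ∃ η : ℝ, η = min ((ε - ε') / (J + 1)) 1 := ⟨_, rfl⟩
  have hη0 : 0 < η := hη ▸ lt_min (div_pos (by linarith) (by positivity)) one_pos
  have hη1 : η ≤ 1 := hη ▸ min_le_right _ _
  have hη2 : η * (J + 1) ≤ ε - ε' :=
    (le_div_iff₀ (by positivity)).1 (hη ▸ min_le_left _ _)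
  obtain ⟨D, hD1, hD⟩ := ((eventually_all.2 fun i : S => eventually_all.2 fun j : S =>
    mass (continuous_shf k i j).measurable (fun s => norm_e _) hη0).and
    (eventually_gt_atTop 0)).exists
  let B := S × (S → Icc (-(D : ℤ)) D)
  let c : B → ℂ := fun x => γ x.1 * ∏ i, ((w D (x.2 i) : ℂ) * hat (shf k i x.1) (x.2 i))
  let n : B → δ₀ ⊕ S → ℤ := fun x => Sum.elim (k x.1) fun i => x.2 i
  let A := {x : B // c x ≠ 0}
  have hn : Function.Injective fun a : A => n a := by
    intro a b h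
    apply Subtype.ext
    exact Prod.ext (hk (funext fun i => congrFun h (Sum.inl i)))
      (funext fun i => Subtype.ext (congrFun h (Sum.inr i)))
  have hv : ∀ a : A, ∑ i, n a i * (Sum.elim v₀ 0 : δ₀ ⊕ S → ℤ) i = ∑ i, k a.1.1 i * v₀ i := by
    intro a
    simp [n]
  have hk0 : ∀ j, k j ≠ 0 := fun j h => by simpa [h] using hv₀ j
  have hz : ∀ a : A, ∑ i, n a i * (Pi.single (Sum.inr a.1.1) 1 : δ₀ ⊕ S → ℤ) i = 1 := by
    intro a
    have h1 := right_ne_zero_of_mul
      (prod_ne_zero_iff.1 (right_ne_zero_of_mul a.2) a.1.1 (mem_univ _))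
    simp [Pi.single_apply, n, hat_shf_self k _ (hk0 _) _ h1]
  choose y hy0 hy1 using exists_y (fun a : A => n a) (Sum.elim v₀ 0)
    (fun a => Pi.single (Sum.inr a.1.1) 1) hn (fun a => by rw [hv]; exact hv₀ _) hz
  have hsub : ∀ f : B → ℝ, (∀ x, c x = 0 → f x = 0) → ∑ a : A, f a = ∑ x, f x := by
    intro f hf
    rw [← sum_subtype (univ.filter fun x => c x ≠ 0) (by simp) f]
    exact sum_filter_of_ne fun x _ h h0 => h (hf x h0)
  refine ⟨{ α := A, δ := δ₀ ⊕ S, n := fun a => n a, c := fun a => c a,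
            lab := fun a => lab a.1.1,
            v := Sum.elim v₀ 0, s := fun a => (∑ i, k a.1.1 i * v₀ i).toNat,
            z := fun a => Pi.single (Sum.inr a.1.1) 1, y := y, hc := fun a => a.2,
            hs := fun a => by have := hv₀ a.1.1; omega,
            hv := fun a => by rw [hv, Int.toNat_of_nonneg (hv₀ _).le],
            hz := hz, hy0 := hy0, hy1 := hy1, mass := ?_, bound := ?_ }⟩
  · rw [hsub (fun x => ‖c x‖ ^ 2) (fun x h => by simp [h]), Fintype.sum_prod_type]
    have h1 : ∀ j, ‖γ j‖ ^ 2 * (1 - (ε - ε')) ≤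
        ∑ m : S → Icc (-(D : ℤ)) D, ‖c (j, m)‖ ^ 2 := by
      intro j
      simp only [c, norm_mul (γ _), norm_prod, mul_pow, ← prod_pow, ← mul_sum]
      rw [← Fintype.piFinset_univ, ← prod_univ_sum (fun _ : S => univ)
        (fun i (m : Icc (-(D : ℤ)) D) => ‖(w D m : ℂ) * hat (shf k i j) m‖ ^ 2)]
      refine mul_le_mul_of_nonneg_left ?_ (by positivity)
      have h2 : ∏ _i : S, (1 - η) ≤ ∏ i : S, ∑ m : Icc (-(D : ℤ)) D,
          ‖(w D m : ℂ) * hat (shf k i j) m‖ ^ 2 := by
        refine prod_le_prod (fun _ _ => by linarith) fun i _ => ?_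
        rw [sum_coe_sort (Icc (-(D : ℤ)) D) fun m => ‖(w D m : ℂ) * hat (shf k i j) m‖ ^ 2]
        exact hD1 i j
      refine le_trans ?_ h2
      rw [prod_const, card_univ, ← hJ]
      have h3 := one_add_mul_le_pow (a := -η) (by linarith) J
      rw [← sub_eq_add_neg] at h3
      nlinarith
    have h5 := sum_le_sum fun j (_ : j ∈ univ) => h1 j
    rw [← sum_mul] at h5
    have h6 : 0 ≤ ∑ j, ∑ m : S → Icc (-(D : ℤ)) D, ‖c (j, m)‖ ^ 2 := by positivity
    by_cases h7 : ε ≤ 1
    · nlinarith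
    · linarith
  · intro t
    refine hP _ fun l c₀ hl => ?_
    have h := (hgood l c₀ hl).conv_prod k hD (fun i => t (Sum.inr i)) univ (fun i => t (Sum.inl i))
    refine h.trans (le_of_eq ?_)
    have h1 : ∑ x, l x * ∑ a : A with lab a.1.1 = x, 2 * (c a * e (∑ i, n a i * t i)).re =
        ∑ a : A, l (lab a.1.1) * (2 * (c a * e (∑ i, n a i * t i)).re) := by
      rw [← sum_fiberwise univ (fun a : A => lab a.1.1)]
      refine sum_congr rfl fun x _ => ?_
      rw [mul_sum]
      exact sum_congr rfl fun a ha => by rw [(mem_filter.1 ha).2]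
    refine Eq.trans ?_ h1.symm
    rw [hsub (fun x => l (lab x.1) * (2 * (c x * e (∑ i, n x i * t i)).re))
      (fun x h => by simp [h]), Fintype.sum_prod_type, Complex.re_sum]
    refine sum_congr rfl fun j _ => ?_
    dsimp only
    rw [← mul_sum, ← mul_sum, ← Complex.re_sum, mul_assoc, mul_assoc, Complex.re_ofReal_mul,
      ← mul_assoc (l _), mul_comm (l _)]
    congr 2
    simp only [conv_eq hD ((continuous_shf k _ _).intervalIntegrable _ _)]
    simp only [← sum_coe_sort (Icc (-(D : ℤ)) D)]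
    rw [prod_univ_sum (fun _ : S => (univ : Finset (Icc (-(D : ℤ)) D)))
        (fun i m => (w D m : ℂ) * hat (shf k i j) m * e ((m : ℤ) * t (Sum.inr i))),
      Fintype.piFinset_univ, sum_mul, mul_sum]
    refine sum_congr rfl fun m _ => ?_
    simp only [c, n, Fintype.sum_sum_type, Sum.elim_inl, Sum.elim_inr, e_add, e_sum,
      prod_mul_distrib]
    ring

end Lift

end Vale.Agent.P130
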