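import Vale.Agent.P130.VLift

/-! Existence of the labelled resonant polynomial. -/

namespace Vale.Agent.P130

open Finset MeasureTheory Filter Vale.Agent.P110 Vale.Agent.P110.Res

namespace VR

variable {N : ℕ} [Fact N.Prime]

/-- The standard additive character. -/
noncomputable abbrev ψ : AddChar (ZMod N) ℂ := ZMod.stdAddChar

theorem ψ_int (j : ℤ) : ψ (j : ZMod N) = e (j / N) := by
  rw [ZMod.stdAddChar_coe, e]
  congr 1
  push_cast
  ring

theorem norm_ψ (r : ZMod N) : ‖ψ r‖ = 1 := by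
  rw [← ZMod.intCast_zmod_cast r, ψ_int, norm_e]

theorem ψ_neg (r : ZMod N) : ψ (-r) = (starRingEnd ℂ) (ψ r) := by
  rw [← ZMod.intCast_zmod_cast r, ← Int.cast_neg, ψ_int, ψ_int, conj_e]
  congr 1
  push_cast
  ring

theorem sum_ψ (b : ZMod N) : ∑ x : ZMod N, ψ (x * b) = if b = 0 then (N : ℂ) else 0 := by
  have := AddChar.sum_mulShift b (ZMod.isPrimitive_stdAddChar N)
  rw [ZMod.card] at this
  rw [this]
  split_ifs <;> simp

/-- The line annihilated by a frequency. -/
def lab (r : ZMod N × ZMod N) : Option (ZMod N) := if r.2 = 0 then none else some (r.1 / r.2)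

theorem lab_neg (r : ZMod N × ZMod N) : lab (-r) = lab r := by
  simp [lab, neg_div_neg_eq]

/-- Lower bound on the finite group. -/
def GB (l : Option (ZMod N) → ℝ) (c : ℝ) : Prop := ∀ g₁ g₂ : ZMod N,
  -c ≤ (∑ r : ZMod N × ZMod N, (if r = 0 then 0 else ((l (lab r) / N : ℝ) : ℂ)) *
    (ψ (r.1 * g₁) * ψ (r.2 * g₂))).re

theorem sum_all (g₁ g₂ : ZMod N) : ∑ r : ZMod N × ZMod N, ψ (r.1 * g₁) * ψ (r.2 * g₂) =
    if g₁ = 0 ∧ g₂ = 0 then (N : ℂ) ^ 2 else 0 := by
  rw [Fintype.sum_prod_type' fun a b : ZMod N => ψ (a * g₁) * ψ (b * g₂), ← sum_mul_sum, sum_ψ,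
    sum_ψ]
  by_cases h1 : g₁ = 0 <;> by_cases h2 : g₂ = 0 <;> simp [h1, h2, pow_two]

theorem sum_line (y : Option (ZMod N)) (g₁ g₂ : ZMod N) : ∃ d : ZMod N,
    (g₁ = 0 ∧ g₂ = 0 → d = 0) ∧
    ∑ r : ZMod N × ZMod N, (if r = 0 ∨ lab r = y then 1 else 0) * (ψ (r.1 * g₁) * ψ (r.2 * g₂)) =
      if d = 0 then (N : ℂ) else 0 := by
  cases y with
  | none =>
    refine ⟨g₁, fun h => h.1, ?_⟩
    rw [← sum_ψ, Fintype.sum_prod_type]
    refine sum_congr rfl fun a _ => ?_
    rw [sum_eq_single 0]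
    · simp [lab]
    · intro b _ hb
      simp [lab, hb]
    · simp
  | some y =>
    refine ⟨y * g₁ + g₂, fun h => by simp [h.1, h.2], ?_⟩
    rw [← sum_ψ, Fintype.sum_prod_type_right]
    refine sum_congr rfl fun b _ => ?_
    rw [sum_eq_single (y * b)]
    · rw [if_pos, one_mul, ← AddChar.map_add_eq_mul]
      · congr 1; ring
      · by_cases hb : b = 0
        · simp [hb]
        · simp [lab, hb]
    · intro a _ ha
      rw [if_neg, zero_mul]
      rintro (h | h)
      · rw [Prod.mk_eq_zero] at h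
        exact ha (by simp [h.1, h.2])
      · by_cases hb : b = 0
        · simp [lab, hb] at h
        · simp only [lab, hb, if_false, Option.some.injEq] at h
          exact ha (by rw [← h]; field_simp)
    · simp

theorem inK_of (b : Option (ZMod N) → ℝ) (h : ∀ l c, GB l c → -c ≤ ∑ x, l x * b x) :
    InK N b := by
  have hN : (0 : ℝ) < N := by exact_mod_cast (Fact.out : N.Prime).pos
  have hN' : (N : ℂ) ≠ 0 := by exact_mod_cast hN.ne'
  constructor
  · have := h (fun _ => 1) (1 / N) fun g₁ g₂ => by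
      have h1 : ∀ r : ZMod N × ZMod N, (if r = 0 then 0 else ((1 / N : ℝ) : ℂ)) *
          (ψ (r.1 * g₁) * ψ (r.2 * g₂)) = 1 / N * (ψ (r.1 * g₁) * ψ (r.2 * g₂)) -
            if r = 0 then 1 / (N : ℂ) else 0 := by
        intro r
        split_ifs with hr
        · simp [hr]
        · simp
      simp only [h1, sum_sub_distrib, ← mul_sum, sum_all, sum_ite_eq', mem_univ, if_true]
      have h2 : ∀ x : ℝ, 0 ≤ x → -(1 / N : ℝ) ≤ (1 / (N : ℂ) * x - 1 / N).re := by
        intro x hx
        have : (1 / (N : ℂ) * x - 1 / N) = ((1 / N * x - 1 / N : ℝ) : ℂ) := by push_cast; ring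
        rw [this, Complex.ofReal_re]
        have : 0 ≤ 1 / N * x := by positivity
        linarith
      split_ifs
      · exact_mod_cast h2 (N ^ 2) (by positivity)
      · exact_mod_cast h2 0 le_rfl
    simpa using this
  · intro y
    have := h (fun x => (if x = y then 1 else 0) - 1 / N) (1 / N - 1 / N ^ 2) fun g₁ g₂ => by
      have h1 : ∀ r : ZMod N × ZMod N,
          (if r = 0 then 0 else ((((if lab r = y then 1 else 0) - 1 / N) / N : ℝ) : ℂ)) *
          (ψ (r.1 * g₁) * ψ (r.2 * g₂)) =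
            1 / N * ((if r = 0 ∨ lab r = y then 1 else 0) * (ψ (r.1 * g₁) * ψ (r.2 * g₂))) -
            1 / N ^ 2 * (ψ (r.1 * g₁) * ψ (r.2 * g₂)) -
            if r = 0 then 1 / (N : ℂ) - 1 / N ^ 2 else 0 := by
        intro r
        by_cases hr : r = 0
        · simp [hr]
        · by_cases hy : lab r = y
          · simp only [hr, hy, if_true, if_false, or_true]
            push_cast; ring
          · simp only [hr, hy, if_false, or_false]
            push_cast; ring
      obtain ⟨d, hd, hsum⟩ := sum_line y g₁ g₂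
      simp only [h1, sum_sub_distrib, ← mul_sum, sum_all, hsum, sum_ite_eq', mem_univ, if_true]
      have h2 : ∀ x z : ℝ, z ≤ N * x → -(1 / N - 1 / N ^ 2 : ℝ) ≤
          (1 / (N : ℂ) * x - 1 / N ^ 2 * z - (1 / N - 1 / N ^ 2)).re := by
        intro x z hx
        have : (1 / (N : ℂ) * x - 1 / N ^ 2 * z - (1 / N - 1 / N ^ 2)) =
            ((1 / N ^ 2 * (N * x - z) - (1 / N - 1 / N ^ 2) : ℝ) : ℂ) := by
          push_cast; field_simp
        rw [this, Complex.ofReal_re]
        have : 0 ≤ 1 / N ^ 2 * (N * x - z) := mul_nonneg (by positivity) (by linarith)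
        linarith
      by_cases hg : g₁ = 0 ∧ g₂ = 0
      · rw [if_pos hg, if_pos (hd hg)]
        exact_mod_cast h2 N (N ^ 2) (le_of_eq (pow_two _))
      · rw [if_neg hg]
        split_ifs
        · exact_mod_cast h2 N 0 (by positivity)
        · exact_mod_cast h2 0 0 (by simp)
    simp only [sub_mul, sum_sub_distrib, ite_mul, one_mul, zero_mul, sum_ite_eq', mem_univ,
      if_true, ← mul_sum] at this
    have h3 : (∑ x, b x + 1 / N) / N = 1 / N * ∑ x, b x + 1 / N ^ 2 := by field_simp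
    rw [h3]
    linarith

/-- A character composed with the step function. -/
noncomputable def g (r : ZMod N) (s : ℝ) : ℂ := ψ (r * ((⌊N * s⌋ : ℤ) : ZMod N))

theorem measurable_g (r : ZMod N) : Measurable (g r) :=
  (measurable_of_countable fun j : ℤ => ψ (r * (j : ZMod N))).comp (measurable_const.mul measurable_id).floor

theorem ii_g (r : ZMod N) (a b : ℝ) : IntervalIntegrable (g r) volume a b := by
  refine (intervalIntegrable_const (c := (1 : ℝ))).mono_fun'
    (measurable_g r).aestronglyMeasurable (Eventually.of_forall fun s => ?_)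
  simp [g, norm_ψ]

theorem hat_g_neg (r : ZMod N) (m : ℤ) :
    hat (g (-r)) (-m) = (starRingEnd ℂ) (hat (g r) m) := by
  simp only [hat, intervalIntegral.integral_of_le zero_le_one]
  rw [← integral_conj]
  congr 1
  funext s
  simp [conj_e, g, ψ_neg]

theorem hat_g (r : ZMod N) (m : ℤ) (h : hat (g r) m ≠ 0) : (m : ZMod N) = r := by
  have hN : (0 : ℝ) < N := by exact_mod_cast (Fact.out : N.Prime).pos
  obtain ⟨f, hf⟩ : ∃ f : ℝ → ℂ, f = fun s => g r s * e (-(m * s)) := ⟨_, rfl⟩
  have hper : Function.Periodic f 1 := by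
    intro s
    simp only [hf, g]
    rw [mul_add, mul_one, Int.floor_add_natCast, show -((m : ℝ) * (s + 1)) = -(m * s) - m by ring,
      e_sub_int]
    simp
  have hsh : ∀ s, f (s + 1 / N) = ψ (r - (m : ZMod N)) * f s := by
    intro s
    simp only [hf, g]
    rw [mul_add, mul_one_div_cancel hN.ne', Int.floor_add_one, sub_eq_add_neg,
      AddChar.map_add_eq_mul, ← Int.cast_neg, ψ_int, Int.cast_add, mul_add, Int.cast_one, mul_one,
      AddChar.map_add_eq_mul, show -((m : ℝ) * (s + 1 / N)) = ((-m : ℤ) : ℝ) / N + -(m * s) by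
        push_cast; ring, e_add]
    ring
  have h1 := hper.intervalIntegral_add_eq 0 (1 / N)
  have h2 := intervalIntegral.integral_comp_add_right (a := 0) (b := 1) f (1 / N)
  simp only [hsh, intervalIntegral.integral_const_mul, zero_add] at h1 h2
  rw [add_comm, ← h1] at h2
  have h3 : hat (g r) m = ∫ s in (0 : ℝ)..1, f s := by rw [hf, hat]
  rw [← h3] at h2
  have h4 : ψ (r - (m : ZMod N)) = 1 := mul_left_eq_self₀.1 h2 |>.resolve_right h
  have h5 := ZMod.injective_stdAddChar (h4.trans (AddChar.map_zero_eq_one _).symm)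
  exact (sub_eq_zero.1 h5).symm

end VR

open VR in
theorem exists_vres (N : ℕ) [Fact N.Prime] (ε : ℝ) (hε : 2 / (N : ℝ) ^ 2 ≤ ε) :
    Nonempty (VRes N (Option (ZMod N)) ε) := by
  classical
  have hN : (0 : ℝ) < N := by exact_mod_cast (Fact.out : N.Prime).pos
  have hN1 : (1 : ℝ) ≤ N := by exact_mod_cast (Fact.out : N.Prime).pos
  obtain ⟨η, hη⟩ : ∃ η : ℝ, η = 1 / (4 * N ^ 2) := ⟨_, rfl⟩
  have hη0 : 0 < η := by rw [hη]; positivity
  have hη1 : η ≤ 1 / 4 := by
    rw [hη]
    exact one_div_le_one_div_of_le (by norm_num) (by nlinarith)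
  obtain ⟨D, hD1, hD⟩ := ((eventually_all.2 fun r : ZMod N =>
    mass (measurable_g r) (fun s => norm_ψ _) hη0).and (eventually_gt_atTop 0)).exists
  let I := Icc (-(D : ℤ)) D
  let W : ZMod N → ℤ → ℂ := fun r m => (w D m : ℂ) * hat (g r) m
  have hW : ∀ r m, W (-r) (-m) = (starRingEnd ℂ) (W r m) := fun r m => by
    simp [W, hat_g_neg, w]
  let B := (ZMod N × ZMod N) × (I × I)
  let c : B → ℂ := fun x => (if x.1 = 0 then 0 else ((1 / N : ℝ) : ℂ)) *
    (W x.1.1 x.2.1 * W x.1.2 x.2.2)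
  let dot : B → ℤ := fun x => x.2.1 + (D + 1) * x.2.2
  let ng : I → I := fun m => ⟨-m, by have := mem_Icc.1 m.2; exact mem_Icc.2 (by omega)⟩
  have hng : Function.Involutive fun x : B => ((-x.1, (ng x.2.1, ng x.2.2)) : B) := by
    intro x
    simp [ng]
  let σ : B ≃ B := hng.toPerm
  have hσc : ∀ x, c (σ x) = (starRingEnd ℂ) (c x) := by
    intro x
    change (if -x.1 = 0 then 0 else ((1 / N : ℝ) : ℂ)) *
      (W (-x.1.1) (-x.2.1) * W (-x.1.2) (-x.2.2)) = _
    simp only [hW, neg_eq_zero, c, map_mul]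
    split_ifs <;> simp
  have hσd : ∀ x, dot (σ x) = -dot x := by
    intro x
    change -(x.2.1 : ℤ) + (D + 1) * -(x.2.2 : ℤ) = -(x.2.1 + (D + 1) * x.2.2)
    ring
  have hsupp : ∀ x, c x ≠ 0 → x.1 ≠ 0 ∧ ((x.2.1 : ℤ) : ZMod N) = x.1.1 ∧
      ((x.2.2 : ℤ) : ZMod N) = x.1.2 := by
    intro x hx
    have h1 := right_ne_zero_of_mul hx
    refine ⟨fun h => ?_, hat_g _ _ (right_ne_zero_of_mul (left_ne_zero_of_mul h1)),
      hat_g _ _ (right_ne_zero_of_mul (right_ne_zero_of_mul h1))⟩
    exact left_ne_zero_of_mul hx (if_pos h)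
  have hdot : ∀ x, c x ≠ 0 → dot x ≠ 0 := by
    intro x hx h0
    obtain ⟨h1, h2, h3⟩ := hsupp x hx
    have h4 := mem_Icc.1 x.2.1.2
    have h5 : (x.2.2 : ℤ) = 0 := by
      simp only [dot] at h0
      rcases lt_trichotomy (x.2.2 : ℤ) 0 with h | h | h
      · nlinarith
      · exact h
      · nlinarith
    have h6 : (x.2.1 : ℤ) = 0 := by simpa [dot, h5] using h0
    rw [h6] at h2
    rw [h5] at h3
    exact h1 (Prod.ext (by simpa using h2.symm) (by simpa using h3.symm))
  let S := {x : B // c x ≠ 0 ∧ 0 < dot x}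
  have hhalf : ∀ f : B → ℝ, (∀ x, f (σ x) = f x) → (∀ x, c x = 0 → f x = 0) →
      ∑ x, f x = 2 * ∑ x : S, f x := by
    intro f hf h0
    have h1 : ∀ x, f x = (if 0 < dot x then f x else 0) +
        (if 0 < dot (σ x) then f (σ x) else 0) := by
      intro x
      rw [hσd, hf]
      by_cases hc : c x = 0
      · simp [h0 x hc]
      · have := hdot x hc
        split_ifs <;> first | omega | simp
    have h2 : ∑ x : S, f x = ∑ x, if 0 < dot x then f x else 0 := by
      rw [← sum_subtype (univ.filter fun x => c x ≠ 0 ∧ 0 < dot x) (by simp) f, sum_filter]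
      refine sum_congr rfl fun x _ => ?_
      by_cases hc : c x = 0
      · simp [h0 x hc]
      · simp [hc]
    rw [sum_congr rfl fun x _ => h1 x, sum_add_distrib,
      Equiv.sum_comp σ fun x => if 0 < dot x then f x else 0, h2, two_mul]
  let k : S → Fin 2 → ℤ := fun x => ![x.1.2.1, x.1.2.2]
  refine lift k ?_ ![1, D + 1] ?_ (fun x => c x) (fun x => lab x.1.1) GB inK_of ?_
    (ε' := 3 / (2 * N ^ 2)) (by positivity) ?_ ?_
  · intro x y h
    have h1 : (x.1.2.1 : ℤ) = y.1.2.1 := congrFun h 0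
    have h2 : (x.1.2.2 : ℤ) = y.1.2.2 := congrFun h 1
    obtain ⟨-, h3, h4⟩ := hsupp _ x.2.1
    obtain ⟨-, h5, h6⟩ := hsupp _ y.2.1
    refine Subtype.ext (Prod.ext (Prod.ext ?_ ?_) (Prod.ext (Subtype.ext h1) (Subtype.ext h2)))
    · rw [← h3, ← h5, h1]
    · rw [← h4, ← h6, h2]
  · intro x
    have := x.2.2
    simp only [dot] at this
    simp only [k, Fin.sum_univ_two, Matrix.cons_val_zero, Matrix.cons_val_one]
    linarith
  · intro l c₀ hl t
    have h1 : ∀ s₂ : ℝ, -c₀ ≤ (∑ r : ZMod N × ZMod N,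
        ((if r = 0 then 0 else ((l (lab r) / N : ℝ) : ℂ)) *
          ∫ s in (0 : ℝ)..1, g r.1 s * K D (t 0 - s)) * g r.2 s₂).re := by
      intro s₂
      have := re_conv_ge hD (fun r : ZMod N × ZMod N =>
        (if r = 0 then 0 else ((l (lab r) / N : ℝ) : ℂ)) * g r.2 s₂) (fun r => g r.1)
        (fun r => ii_g _ _ _) (c := c₀) (fun s₁ => by
          have := hl ((⌊N * s₁⌋ : ℤ) : ZMod N) ((⌊N * s₂⌋ : ℤ) : ZMod N)
          refine this.trans (le_of_eq ?_)
          congr 1
          exact sum_congr rfl fun r _ => by simp only [g]; ring) (t 0)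
      refine this.trans (le_of_eq ?_)
      congr 1
      exact sum_congr rfl fun r _ => by ring
    have h2 := re_conv_ge hD _ (fun r : ZMod N × ZMod N => g r.2) (fun r => ii_g _ _ _) h1 (t 1)
    refine h2.trans (le_of_eq ?_)
    have h3 := hhalf (fun x => l (lab x.1) * (c x * e (x.2.1 * t 0 + x.2.2 * t 1)).re)
      (fun x => by
        rw [hσc]
        change l (lab (-x.1)) * (_ * e (((-x.2.1 : ℤ) : ℝ) * t 0 + ((-x.2.2 : ℤ) : ℝ) * t 1)).re = _
        rw [lab_neg, ← Complex.conj_re (c x * _), map_mul _ (c x), conj_e]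
        congr 4
        push_cast
        ring) (fun x h => by simp [h])
    rw [Complex.re_sum, Complex.re_sum]
    refine Eq.trans ?_ (h3.trans ?_)
    · rw [Fintype.sum_prod_type (α₂ := I × I)]
      refine sum_congr rfl fun r _ => ?_
      dsimp only
      rw [← mul_sum, ← Complex.re_sum, ← Complex.re_ofReal_mul]
      congr 1
      simp only [conv_eq hD (ii_g _ _ _)]
      simp only [← sum_coe_sort (Icc (-(D : ℤ)) D)]
      rw [mul_assoc, sum_mul_sum, ← Fintype.sum_prod_type', mul_sum, mul_sum]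
      refine sum_congr rfl fun m _ => ?_
      simp only [c, W, e_add]
      split_ifs
      · simp
      · push_cast; ring
    · rw [mul_sum]
      refine sum_congr rfl fun x _ => ?_
      simp only [k, Fin.sum_univ_two, Matrix.cons_val_zero, Matrix.cons_val_one]
      rw [mul_assoc ((_ : ℝ) : ℂ), Complex.re_ofReal_mul, mul_assoc (2 : ℝ)]
  · refine lt_of_lt_of_le ?_ hε
    rw [div_lt_div_iff₀ (by positivity) (by positivity)]
    nlinarith
  · rw [← hhalf (fun x => ‖c x‖ ^ 2) (fun x => by rw [hσc, RCLike.norm_conj])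
      (fun x h => by simp [h]), Fintype.sum_prod_type]
    have h1 : ∀ r : ZMod N × ZMod N, (1 - η) ^ 2 / N ^ 2 - (if r = 0 then (1 - η) ^ 2 / N ^ 2 else 0)
        ≤ ∑ m : I × I, ‖c (r, m)‖ ^ 2 := by
      intro r
      split_ifs with hr
      · rw [sub_self]; positivity
      · simp only [c, hr, if_false, norm_mul ((_ : ℝ) : ℂ), norm_mul (W _ _), mul_pow, ← mul_sum]
        rw [Fintype.sum_prod_type' (fun a b : I => ‖W r.1 a‖ ^ 2 * ‖W r.2 b‖ ^ 2), ← sum_mul_sum,
          sum_coe_sort I fun m => ‖W r.1 m‖ ^ 2, sum_coe_sort I fun m => ‖W r.2 m‖ ^ 2,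
          Complex.norm_real, Real.norm_eq_abs, sq_abs, sub_zero, div_eq_inv_mul, one_div, inv_pow,
          pow_two (1 - η)]
        exact mul_le_mul_of_nonneg_left
          (mul_le_mul (hD1 r.1) (hD1 r.2) (by linarith) (by positivity)) (by positivity)
    refine le_trans ?_ (sum_le_sum fun r _ => h1 r)
    rw [sum_sub_distrib, sum_ite_eq', if_pos (mem_univ _), sum_const, card_univ, Fintype.card_prod,
      ZMod.card, nsmul_eq_mul]
    have h2 : ((N * N : ℕ) : ℝ) * ((1 - η) ^ 2 / N ^ 2) = (1 - η) ^ 2 := by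
      push_cast; field_simp
    have h3 : (1 - η) ^ 2 / N ^ 2 = 4 * η * (1 - η) ^ 2 := by rw [hη]; field_simp
    have h4 : 3 / (2 * (N : ℝ) ^ 2) = 6 * η := by rw [hη]; field_simp; norm_num
    rw [h2, h3, h4]
    nlinarith [mul_nonneg hη0.le hη0.le, mul_nonneg hη0.le (mul_nonneg hη0.le hη0.le)]

end Vale.Agent.P130
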